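import Vale.Agent.P157.Full.CavPair.Tools
import Vale.Agent.P157.Blocks
import Vale.Agent.P157.Parisi.Perturb.Basic

/-!
The sites of the perturbed system are exchangeable.
-/

noncomputable section

open MeasureTheory ProbabilityTheory
open scoped BigOperators

namespace Vale.Agent.P157.Parisi.Full.CavPair

open Cavity

variable {N L n : ℕ} {f : ℝ → ℝ} {A s : ℝ} {x : Fin L → ℝ}

/-- Permuting the sites of a configuration. -/
def relab (π : Equiv.Perm (Fin N)) : Cube N ≃ Cube N := Equiv.arrowCongr π.symm (Equiv.refl Bool)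

lemma relab_apply (π : Equiv.Perm (Fin N)) (σ : Cube N) (i : Fin N) : relab π σ i = σ (π i) := rfl

lemma sv_relab (π : Equiv.Perm (Fin N)) (σ : Cube N) (i : Fin N) :
    sv (relab π σ) i = sv σ (π i) := rfl

lemma overlap_relab (π : Equiv.Perm (Fin N)) (σ τ : Cube N) :
    overlap (relab π σ) (relab π τ) = overlap σ τ := by
  simp only [overlap, sv_relab]
  rw [Equiv.sum_comp π (fun i => sv σ i * sv τ i)]

/-- Permuting the sites in the disorder. -/
def move (π : Equiv.Perm (Fin N)) (b : Base N L n) : Base N L n :=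
  (fun a j => b.1 a (π.symm j), fun c => b.2 ⟨c.1, fun i => π.symm (c.2 i)⟩)

lemma ham_relab (π : Equiv.Perm (Fin N)) (b : Base N L n) (σ : Cube N) :
    ham f s x b (relab π σ) = ham f s x (move π b) σ := by
  have hu : ∀ i, unitVec (relab π σ) i = unitVec σ (π i) := fun i => rfl
  have hd : ∀ g : Fin N → ℝ,
      dot g (unitVec (relab π σ)) = dot (fun j => g (π.symm j)) (unitVec σ) := fun g => by
    simp only [dot, hu]
    refine Fintype.sum_equiv π _ _ fun i => ?_
    simp
  simp only [ham, patH, pertH, hd, hu, move]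
  congr 1
  refine Fintype.sum_equiv (Equiv.sigmaCongrRight fun p : Fin L =>
    Equiv.piCongrRight fun _ : Fin (p.val + 1) => π) _ _ fun c => ?_
  obtain ⟨p, v⟩ := c
  simp [Equiv.sigmaCongrRight]
  exact Or.inl (Or.inl rfl)

lemma measurePreserving_move (π : Equiv.Perm (Fin N)) :
    MeasurePreserving (move (L := L) (n := n) π) (baseLaw N L n) (baseLaw N L n) :=
  (measurePreserving_pi (fun _ : Fin n => gam (Fin N)) (fun _ => gam (Fin N))
    fun _ => measurePreserving_reindex (gaussianReal 0 1) π.symm).prod
    (measurePreserving_reindex (gaussianReal 0 1) (Equiv.sigmaCongrRight fun p : Fin L =>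
      Equiv.piCongrRight fun _ : Fin (p.val + 1) => π.symm))

/-- Means of two replicas do not see a permutation of the sites. -/
theorem integral_av2_relab (hf : Smooth f A) (π : Equiv.Perm (Fin N))
    (F : Cube N → Cube N → ℝ) :
    ∫ b : Base N L n, av2 (ham f s x b) F ∂baseLaw N L n =
      ∫ b : Base N L n, av2 (ham f s x b) (fun σ τ => F (relab π σ) (relab π τ))
        ∂baseLaw N L n := by
  have e : ∀ b : Base N L n, av2 (ham f s x b) F =
      av2 (ham f s x (move π b)) (fun σ τ => F (relab π σ) (relab π τ)) := fun b => by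
    rw [← av2_equiv (relab π) (ham f s x b) F]
    simp only [ham_relab]
  simp only [e]
  have hmp := measurePreserving_move (L := L) (n := n) π
  have hm := (measurable_av2 (H := fun b : Base N L n => ham f s x b) (fun σ => measurable_ham hf σ)
    fun σ τ => F (relab π σ) (relab π τ)).aestronglyMeasurable (μ := baseLaw N L n)
  conv_rhs => rw [← hmp.map_eq]
  rw [integral_map hmp.measurable.aemeasurable (by rwa [hmp.map_eq])]

/-- The product of two spins at one site against the overlap. -/
theorem integral_av2_exchange (hf : Smooth f A) (k : ℕ) :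
    ∫ b : Base (N + 1) L n, av2 (ham f s x b)
        (fun σ τ => overlap σ τ ^ k * (sv σ (Fin.last N) * sv τ (Fin.last N))) ∂baseLaw (N + 1) L n =
      ∫ b : Base (N + 1) L n, av2 (ham f s x b) (fun σ τ => overlap σ τ ^ (k + 1))
        ∂baseLaw (N + 1) L n := by
  set I : Fin (N + 1) → ℝ := fun i => ∫ b : Base (N + 1) L n, av2 (ham f s x b)
    (fun σ τ => overlap σ τ ^ k * (sv σ i * sv τ i)) ∂baseLaw (N + 1) L n
  have hI : ∀ i, I (Fin.last N) = I i := fun i => by
    refine (integral_av2_relab hf (Equiv.swap i (Fin.last N)) _).trans ?_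
    simp only [sv_relab, overlap_relab, Equiv.swap_apply_right, I]
  have hsum : ∀ b : Base (N + 1) L n, av2 (ham f s x b) (fun σ τ => overlap σ τ ^ (k + 1)) =
      (1 / (N + 1 : ℝ)) * ∑ i, av2 (ham f s x b)
        (fun σ τ => overlap σ τ ^ k * (sv σ i * sv τ i)) := fun b => by
    simp only [av2_eq_sum, Finset.mul_sum]
    conv_rhs => rw [Finset.sum_comm]
    refine Finset.sum_congr rfl fun σ _ => ?_
    conv_rhs => rw [Finset.sum_comm]
    refine Finset.sum_congr rfl fun τ _ => ?_
    simp only [← Finset.mul_sum]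
    rw [pow_succ, show overlap σ τ = (∑ i, sv σ i * sv τ i) / (N + 1 : ℝ) by
      rw [overlap]; push_cast; rfl]
    ring
  have hi : ∀ i : Fin (N + 1), Integrable (fun b : Base (N + 1) L n => av2 (ham f s x b)
      (fun σ τ => overlap σ τ ^ k * (sv σ i * sv τ i))) (baseLaw (N + 1) L n) := fun i => by
    refine integrable_av2 (fun σ => measurable_ham hf σ) (B := 1) fun σ τ => ?_
    rw [abs_mul, abs_mul, abs_pow, Perturb.abs_sv, Perturb.abs_sv, mul_one, mul_one]
    exact pow_le_one₀ (abs_nonneg _) (Perturb.abs_overlap_le σ τ)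
  simp only [hsum]
  rw [integral_const_mul, integral_finsetSum _ fun i _ => hi i]
  show I (Fin.last N) = 1 / (N + 1 : ℝ) * ∑ i, I i
  simp only [← hI, Finset.sum_const, Finset.card_univ, Fintype.card_fin, nsmul_eq_mul]
  push_cast
  field_simp

end Vale.Agent.P157.Parisi.Full.CavPair
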