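import Vale.Agent.P157.Full.CavPair.Tools
import Vale.Agent.P157.Parisi.Sphere.Site.Quad

/-!
Two replicas of the system of `N + 1` sites against their cavity description.
-/

noncomputable section

open MeasureTheory ProbabilityTheory
open scoped BigOperators

namespace Vale.Agent.P157.Parisi.Full.CavPair

open Vale.Agent.P168.Limit (gw gav logZ gav_mono gav_const)
open Cavity

variable {N L n : ℕ} {f : ℝ → ℝ} {A s T : ℝ} {x : Fin L → ℝ}

/-- The cavity Hamiltonian on `N + 1` sites. -/
def cavH (f : ℝ → ℝ) (T s : ℝ) (x : Fin L → ℝ) (b : Base N L n) (z : Fin n → ℝ)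
    (σ : Cube (N + 1)) : ℝ :=
  ham f s x b (dropLast σ) +
    (sgn (σ (Fin.last N)) * cY f b.1 z (dropLast σ) + cB f T b.1 (dropLast σ))

/-- The cavity weight of a sign. -/
def cavW (f : ℝ → ℝ) (T : ℝ) (g : Fin n → Fin N → ℝ) (z : Fin n → ℝ) (σ : Cube N) (e : Bool) : ℝ :=
  Real.exp (sgn e * cY f g z σ + cB f T g σ)

lemma dropLast_snoc (σ : Cube N) (e : Bool) : dropLast (Fin.snoc σ e : Cube (N + 1)) = σ := by
  funext i; simp [dropLast]

lemma cavW_avg (g : Fin n → Fin N → ℝ) (z : Fin n → ℝ) (σ : Cube N) :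
    (∑ e, cavW f T g z σ e) / 2 = Real.cosh (cY f g z σ) * Real.exp (cB f T g σ) ∧
      (∑ e, cavW f T g z σ e * sgn e) / 2 = Real.sinh (cY f g z σ) * Real.exp (cB f T g σ) := by
  simp only [cavW, Fintype.sum_bool, sgn, if_true, Bool.false_eq_true, if_false, one_mul,
    neg_one_mul, mul_one, mul_neg, Real.exp_add, Real.cosh_eq, Real.sinh_eq]
  constructor <;> ring

/-- A mean under the cavity Hamiltonian. -/
lemma gav_cavH (b : Base N L n) (z : Fin n → ℝ) (F : Cube (N + 1) → ℝ) :
    gav (cavH f T s x b z) F =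
      gav (ham f s x b) (fun σ => (∑ e, cavW f T b.1 z σ e * F (Fin.snoc σ e)) / 2) /
        gav (ham f s x b) fun σ => Real.cosh (cY f b.1 z σ) * Real.exp (cB f T b.1 σ) := by
  set H := ham f s x b with hH
  have e0 : ∀ σ e, Real.exp (cavH f T s x b z (Fin.snoc σ e : Cube (N + 1))) =
      Real.exp (H σ) * cavW f T b.1 z σ e := fun σ e => by
    rw [cavW, ← Real.exp_add, cavH, dropLast_snoc, Fin.snoc_last]
  have hZ : 0 < ∑ σ, Real.exp (H σ) := Vale.Agent.P168.Limit.sum_exp_pos _
  have hsum : ∀ G : Cube (N + 1) → ℝ, ∑ a, Real.exp (cavH f T s x b z a) * G a =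
      2 * (∑ σ, Real.exp (H σ)) *
        gav H (fun σ => (∑ e, cavW f T b.1 z σ e * G (Fin.snoc σ e)) / 2) := fun G => by
    rw [sum_cube_succ, gav, Finset.mul_sum]
    refine Finset.sum_congr rfl fun σ _ => ?_
    simp only [e0, mul_assoc, ← Finset.mul_sum, gw]
    field_simp
  have hden := hsum fun _ => 1
  simp only [mul_one, (cavW_avg _ _ _).1] at hden
  rw [gav]
  simp only [gw, div_mul_eq_mul_div, ← Finset.sum_div]
  rw [hsum F, hden, mul_div_mul_left]
  positivity

/-- Two replicas under the cavity Hamiltonian. -/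
lemma av2_cavH (b : Base N L n) (z : Fin n → ℝ) (G : Cube N → Cube N → ℝ) (c : Bool → ℝ) :
    av2 (cavH f T s x b z)
        (fun a a' => G (dropLast a) (dropLast a') * (c (a (Fin.last N)) * c (a' (Fin.last N)))) =
      (∑ σ, ∑ τ, gw (ham f s x b) σ * gw (ham f s x b) τ * (G σ τ *
          (((∑ e, cavW f T b.1 z σ e * c e) / 2) * ((∑ e, cavW f T b.1 z τ e * c e) / 2)))) /
        (∑ σ, gw (ham f s x b) σ * (Real.cosh (cY f b.1 z σ) * Real.exp (cB f T b.1 σ))) ^ 2 := by
  simp only [av2, gav_cavH, dropLast_snoc, Fin.snoc_last]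
  simp only [gav, mul_div_assoc', div_mul_eq_mul_div, Finset.mul_sum, Finset.sum_mul,
    Finset.sum_div]
  refine Finset.sum_congr rfl fun σ _ => ?_
  rw [Finset.sum_comm]
  refine Finset.sum_congr rfl fun τ _ => ?_
  rw [Finset.sum_comm]
  refine Finset.sum_congr rfl fun e _ => Finset.sum_congr rfl fun e' _ => ?_
  rw [pow_two]
  ring

/-- A linear bound with the square of the increment. -/
lemma taylor_one (hf : Smooth f A) (S d : ℝ) : f (S + d) ≤ f S + deriv f S * d + A * d ^ 2 := by
  have hA := Smooth.A_nonneg hf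
  set ψ : ℝ → ℝ := fun t => f (S + t) - f S - deriv f S * t with hψ
  have h0 : ∀ t, HasDerivAt ψ (deriv f (S + t) - deriv f S) t := fun t => by
    refine (((HasDerivAt.comp_const_add S t (hf.d0 (S + t)).hasDerivAt).sub_const (f S)).sub
      ((hasDerivAt_id' t).const_mul (deriv f S))).congr_deriv ?_
    simp
  have hb : ∀ t ∈ Set.Icc (-|d|) |d|, |deriv f (S + t) - deriv f S| ≤ A * |d| := by
    intro t ht
    have h := (convex_univ : Convex ℝ (Set.univ : Set ℝ)).norm_image_sub_le_of_norm_deriv_le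
      (fun y _ => hf.d1 y) (fun y _ => by rw [Real.norm_eq_abs]; exact hf.b2 y)
      (Set.mem_univ S) (Set.mem_univ (S + t))
    rw [Real.norm_eq_abs, Real.norm_eq_abs, add_sub_cancel_left] at h
    exact h.trans (mul_le_mul_of_nonneg_left (abs_le.2 ht) hA)
  have h := (convex_Icc (-|d|) |d|).norm_image_sub_le_of_norm_hasDerivWithin_le
    (fun y _ => (h0 y).hasDerivWithinAt) hb
    (Set.mem_Icc.2 ⟨neg_nonpos.2 (abs_nonneg d), abs_nonneg d⟩) ⟨neg_abs_le d, le_abs_self d⟩
  simp only [hψ, Real.norm_eq_abs, add_zero, sub_self, mul_zero, sub_zero] at h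
  have := (abs_le.1 h).2
  rw [mul_assoc, ← sq, sq_abs] at this
  linarith

/-- Both sides of the expansion of the patterns at one configuration. -/
lemma sq_dev_le (hN : 0 < N) (hf : Smooth f A) (g : Fin n → Fin N → ℝ) (z : Fin n → ℝ)
    (σ : Cube N) (e : Bool) :
    ((∑ a, (f (dot (snocPat g z a) (unitVec (Fin.snoc σ e : Cube (N + 1)))) -
        f (dot (g a) (unitVec σ)))) - (sgn e * cY f g z σ + cB f T g σ)) ^ 2 ≤
      remBound f A T g z σ := by
  have hneg : Smooth (fun y => -f y) A :=
    ⟨hf.d0.neg, by simpa [deriv.neg'] using hf.d1.neg,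
      by simpa [deriv.neg'] using hf.d2.neg, fun y => by simpa using hf.b0 y,
      fun y => by simpa [deriv.neg'] using hf.b1 y, fun y => by simpa [deriv.neg'] using hf.b2 y,
      fun y => by simpa [deriv.neg'] using hf.b3 y⟩
  set S : Fin n → ℝ := fun a => dot (g a) (unitVec σ) with hS
  set m : Fin n → ℝ := fun a => deriv (deriv f) (S a) * (z a ^ 2 - 1) / (2 * (N + 1)) with hm
  set q : Fin n → ℝ := fun a => qTerm A T N (S a) (z a) with hq
  set r : Fin n → ℝ := fun a =>
    f (dot (snocPat g z a) (unitVec (Fin.snoc σ e : Cube (N + 1)))) - f (S a) -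
      (sgn e * (z a * deriv f (S a) / Real.sqrt N) +
        (deriv (deriv f) (S a) - clampT T (S a) * deriv f (S a)) / (2 * N)) with hr
  have hb : ∀ a, |r a - m a| ≤ q a := fun a => by
    have h1 := site_term (T := T) hN hf (S a) (z a) e
    have h2 := site_term (T := T) hN hneg (S a) (z a) e
    simp only [show deriv (fun y => -f y) = fun y => -deriv f y from funext fun y => deriv.fun_neg,
      deriv.fun_neg, neg_mul, mul_neg, neg_div, sub_neg_eq_add] at h2
    simp only [hr, hm, hq, hS, snocPat, dot_snoc] at h1 h2 ⊢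
    rw [show ∀ u v w : ℝ, (-u + v) / w = -((u - v) / w) from fun u v w => by ring] at h2
    rw [abs_le]
    constructor
    · linarith only [h1]
    · linarith only [h2]
  have hsum : (∑ a, (f (dot (snocPat g z a) (unitVec (Fin.snoc σ e : Cube (N + 1)))) -
      f (dot (g a) (unitVec σ)))) - (sgn e * cY f g z σ + cB f T g σ) = ∑ a, r a := by
    simp only [hr, hS, Finset.sum_sub_distrib, Finset.sum_add_distrib, ← Finset.mul_sum,
      ← Finset.sum_div, cY, cB]
  rw [hsum, show ∑ a, r a = ∑ a, m a + ∑ a, (r a - m a) by rw [← Finset.sum_add_distrib]; simp]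
  refine add_sq_le.trans ?_
  rw [mul_add, remBound]
  refine add_le_add (le_of_eq ?_) ?_
  · simp only [hm, hS, ← Finset.sum_div]
    rw [div_pow]; field_simp
  · refine (mul_le_mul_of_nonneg_left
      (sq_sum_le_card_mul_sum_sq (s := (Finset.univ : Finset (Fin n)))) two_pos.le).trans ?_
    rw [Finset.card_univ, Fintype.card_fin, Finset.mul_sum, Finset.mul_sum, Finset.mul_sum]
    refine Finset.sum_le_sum fun a _ => ?_
    have h1 : (r a - m a) ^ 2 ≤ q a ^ 2 := by
      rw [← sq_abs]; exact pow_le_pow_left₀ (abs_nonneg _) (hb a) 2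
    have h2 := mul_le_mul_of_nonneg_left
      (le_trans (mul_le_mul_of_nonneg_left h1 two_pos.le)
        (qTerm_sq_le (A := A) (T := T) hN (S a) (z a))) (Nat.cast_nonneg (α := ℝ) n)
    exact (le_of_eq (by ring)).trans (h2.trans_eq (by simp only [hS]; ring))

/-- The majorant of the square of the new site's weight. -/
def growW (A : ℝ) (f : ℝ → ℝ) (g : Fin n → Fin N → ℝ) (z : Fin n → ℝ) (σ : Cube N) (e : Bool) : ℝ :=
  Real.exp (A / N * ∑ a, |dot (g a) (unitVec σ)|) *
    ∏ a, Real.exp (8 * A / N * z a ^ 2 / 2 +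
      2 * sgn e / Real.sqrt (N + 1 : ℝ) * deriv f (dot (g a) (unitVec σ)) * z a)

lemma exp_two_le (hN : 0 < N) (hf : Smooth f A) (g : Fin n → Fin N → ℝ) (z : Fin n → ℝ)
    (σ : Cube N) (e : Bool) :
    Real.exp (2 * ∑ a, (f (dot (snocPat g z a) (unitVec (Fin.snoc σ e : Cube (N + 1)))) -
        f (dot (g a) (unitVec σ)))) ≤ growW A f g z σ e := by
  obtain ⟨hκ0, hκ, -, hδ0, hδ, -, -, -, -, hr2, hδ2⟩ := coef_bounds hN rfl rfl rfl
  have hA := Smooth.A_nonneg hf
  have hN0 : (0 : ℝ) < N := Nat.cast_pos.2 hN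
  rw [growW, ← Real.exp_sum, ← Real.exp_add, Real.exp_le_exp, Finset.mul_sum, Finset.mul_sum,
    ← Finset.sum_add_distrib]
  refine Finset.sum_le_sum fun a _ => ?_
  set S := dot (g a) (unitVec σ)
  set d := sgn e * (z a / Real.sqrt (N + 1 : ℝ)) with hd
  set κ := 1 - Real.sqrt (N / (N + 1 : ℝ)) with hκdef
  rw [snocPat, dot_snoc, show Real.sqrt (N / (N + 1 : ℝ)) * S + sgn e * (z a / Real.sqrt (N + 1 : ℝ))
    = S + d + -(κ * S) by rw [hd, hκdef]; ring]
  have h1 : f (S + d + -(κ * S)) ≤ f (S + d) + A * (κ * |S|) := by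
    have h := (convex_univ : Convex ℝ (Set.univ : Set ℝ)).norm_image_sub_le_of_norm_deriv_le
      (fun y _ => hf.d0 y) (fun y _ => by rw [Real.norm_eq_abs]; exact hf.b1 y)
      (Set.mem_univ (S + d)) (Set.mem_univ (S + d + -(κ * S)))
    rw [Real.norm_eq_abs, Real.norm_eq_abs, add_sub_cancel_left, abs_neg, abs_mul,
      abs_of_nonneg hκ0] at h
    linarith [(abs_le.1 h).2]
  have h2 := taylor_one hf S d
  have hκN : κ * |S| ≤ 1 / (2 * N) * |S| := by
    refine mul_le_mul_of_nonneg_right ?_ (abs_nonneg _)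
    rw [hr2] at hκ
    exact hκ.trans_eq (by ring)
  have hd2 : d ^ 2 ≤ z a ^ 2 / N := by
    have : sgn e ^ 2 = 1 := by cases e <;> simp [sgn]
    rw [hd, mul_pow, this, one_mul, div_pow, Real.sq_sqrt (by positivity)]
    gcongr
    linarith
  have h3 := mul_le_mul_of_nonneg_left hκN hA
  have h4 := mul_le_mul_of_nonneg_left hd2 hA
  have e1 : 2 * (A * (1 / (2 * (N : ℝ)) * |S|)) = A / N * |S| := by field_simp
  have e2 : 2 * (deriv f S * d) = 2 * sgn e / Real.sqrt (N + 1 : ℝ) * deriv f S * z a := by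
    rw [hd]; ring
  have e3 : 2 * (A * (z a ^ 2 / N)) ≤ 8 * A / N * z a ^ 2 / 2 := by
    have : 0 ≤ A * (z a ^ 2 / N) := by positivity
    calc 2 * (A * (z a ^ 2 / N)) ≤ 4 * (A * (z a ^ 2 / N)) := by linarith
      _ = _ := by ring
  linarith

lemma integral_growW (hN : 0 < N) (hf : Smooth f A) (hNA : 16 * A ≤ N) (g : Fin n → Fin N → ℝ)
    (σ : Cube N) (e : Bool) :
    Integrable (fun z => growW A f g z σ e) (gam (Fin n)) ∧
      ∫ z, growW A f g z σ e ∂gam (Fin n) ≤ Real.exp (A / N * ∑ a, |dot (g a) (unitVec σ)|) *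
        Real.exp (n / N * (4 * A ^ 2 + 8 * A)) := by
  have hA := Smooth.A_nonneg hf
  have hN0 : (0 : ℝ) < N := Nat.cast_pos.2 hN
  set a₀ : ℝ := 8 * A / N with ha₀
  have ha0 : 0 ≤ a₀ := by positivity
  have ha : a₀ ≤ 1 / 2 := by rw [ha₀, div_le_iff₀ hN0]; linarith
  set c : Fin n → ℝ := fun a =>
    2 * sgn e / Real.sqrt (N + 1 : ℝ) * deriv f (dot (g a) (unitVec σ)) with hc
  have he : ∀ a, ∫ y, Real.exp (a₀ * y ^ 2 / 2 + c a * y) ∂gaussianReal 0 1 =
      Real.exp (c a ^ 2 / (2 * (1 - a₀))) / Real.sqrt (1 - a₀) := fun a => by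
    have := Sphere.Site.integral_exp_quad (a := a₀) (by linarith) (c a) fun _ => 1
    simpa using this
  have hi : ∀ a, Integrable (fun y => Real.exp (a₀ * y ^ 2 / 2 + c a * y)) (gaussianReal 0 1) :=
    fun a => Integrable.of_integral_ne_zero <| by
      rw [he a]
      exact div_ne_zero (Real.exp_pos _).ne' (Real.sqrt_pos.2 (by linarith)).ne'
  have hb : ∀ a, ∫ y, Real.exp (a₀ * y ^ 2 / 2 + c a * y) ∂gaussianReal 0 1 ≤
      Real.exp (4 * A ^ 2 / N + a₀) := fun a => by
    have hu : 0 < 1 - a₀ := by linarith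
    have h1 : c a ^ 2 / (2 * (1 - a₀)) ≤ 4 * A ^ 2 / N := by
      have hc2 : c a ^ 2 ≤ 4 * A ^ 2 / N := by
        rw [hc, mul_pow, div_pow, mul_pow, Real.sq_sqrt (by positivity)]
        have hs : sgn e ^ 2 = 1 := by cases e <;> simp [sgn]
        have hd : deriv f (dot (g a) (unitVec σ)) ^ 2 ≤ A ^ 2 :=
          sq_le_sq.2 ((hf.b1 _).trans (le_abs_self A))
        rw [hs, mul_one, show (2 : ℝ) ^ 2 = 4 by norm_num, div_mul_eq_mul_div]
        gcongr
        linarith
      exact (div_le_self (sq_nonneg _) (by linarith)).trans hc2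
    have h2 : 1 / Real.sqrt (1 - a₀) ≤ Real.exp a₀ := by
      rw [div_le_iff₀ (Real.sqrt_pos.2 hu)]
      have h3 : Real.exp (-a₀) ≤ Real.sqrt (1 - a₀) := by
        rw [Real.le_sqrt (Real.exp_pos _).le hu.le, sq, ← Real.exp_add]
        have h4 := Real.add_one_le_exp (2 * a₀)
        have h5 : Real.exp (-a₀ + -a₀) * Real.exp (2 * a₀) = 1 := by
          rw [← Real.exp_add]; simp; ring
        have h7 : (1 : ℝ) ≤ (1 - a₀) * (1 + 2 * a₀) := by nlinarith
        have h6 : Real.exp (-a₀ + -a₀) * (1 + 2 * a₀) ≤ (1 - a₀) * (1 + 2 * a₀) :=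
          ((mul_le_mul_of_nonneg_left (by linarith) (Real.exp_pos _).le).trans_eq h5).trans h7
        exact le_of_mul_le_mul_right h6 (by linarith)
      calc (1 : ℝ) = Real.exp a₀ * Real.exp (-a₀) := by rw [← Real.exp_add]; simp
        _ ≤ _ := mul_le_mul_of_nonneg_left h3 (Real.exp_pos _).le
    rw [he a, div_eq_mul_one_div, Real.exp_add]
    exact mul_le_mul (Real.exp_le_exp.2 h1) h2 (by positivity) (Real.exp_pos _).le
  unfold growW
  refine ⟨(Integrable.fintype_prod (f := fun a y => Real.exp (a₀ * y ^ 2 / 2 + c a * y)) hi).const_mul _,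
    ?_⟩
  rw [integral_const_mul, integral_fintype_prod_eq_prod fun a y =>
    Real.exp (a₀ * y ^ 2 / 2 + c a * y)]
  refine mul_le_mul_of_nonneg_left ?_ (Real.exp_pos _).le
  refine (Finset.prod_le_prod (fun a _ => integral_nonneg fun y => (Real.exp_pos _).le)
    fun a _ => hb a).trans_eq ?_
  rw [Finset.prod_const, Finset.card_univ, Fintype.card_fin, ← Real.exp_nat_mul, ha₀]
  congr 1
  ring

/-- Convexity: an exponential of a sum against exponentials of the terms. -/
lemma exp_sum_le (u : Fin n → ℝ) (hu : ∀ a, 0 ≤ u a) {t β : ℝ} (ht : 0 ≤ t)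
    (hn : t * n ≤ β) :
    Real.exp (t * ∑ a, u a) ≤ 1 + 1 / n * ∑ a, Real.exp (β * u a) := by
  rcases Nat.eq_zero_or_pos n with rfl | hn0
  · simp
  have hp : (0 : ℝ) < n := Nat.cast_pos.2 hn0
  have h := convexOn_exp.map_sum_le (t := (Finset.univ : Finset (Fin n)))
    (w := fun _ => 1 / (n : ℝ)) (p := fun a => β * u a) (fun a _ => by positivity)
    (by simp [hp.ne']) (fun a _ => Set.mem_univ _)
  simp only [smul_eq_mul, ← Finset.mul_sum] at h
  refine (Real.exp_le_exp.2 ?_).trans (h.trans (by linarith))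
  rw [← mul_assoc, one_div, ← div_eq_inv_mul]
  exact mul_le_mul_of_nonneg_right ((le_div_iff₀ hp).2 hn)
    (Finset.sum_nonneg fun a _ => hu a)

/-- The pointwise comparison. -/
theorem av2_pointwise (hN : 0 < N) (hf : Smooth f A) (hT : 0 ≤ T) {η : ℝ} (hη : 0 < η)
    (b : Base N L n) (z : Fin n → ℝ) {F : Cube (N + 1) → Cube (N + 1) → ℝ}
    (hF : ∀ a a', |F a a'| ≤ 1) :
    |av2 (siteH f s x b z) F - av2 (cavH f T s x b z) F| ≤
      4 * Real.exp (n * bCav A T N) * gav (ham f s x b) fun σ =>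
        remBound f A T b.1 z σ / (2 * η) +
          η * ((∑ e, growW A f b.1 z σ e) / 2 +
            Real.exp (2 * n * bCav A T N) * Real.cosh (2 * cY f b.1 z σ)) := by
  set H := ham f s x b with hH
  set D : Cube N → Bool → ℝ := fun σ e =>
    ∑ a, (f (dot (snocPat b.1 z a) (unitVec (Fin.snoc σ e : Cube (N + 1)))) -
      f (dot (b.1 a) (unitVec σ))) with hD
  set δ : Cube (N + 1) → ℝ := fun σ => siteH f s x b z σ - cavH f T s x b z σ with hδ
  have hsite : siteH f s x b z = fun σ => cavH f T s x b z σ + δ σ := funext fun σ => by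
    simp [hδ]
  have hδe : ∀ σ e, δ (Fin.snoc σ e) = D σ e - (sgn e * cY f b.1 z σ + cB f T b.1 σ) :=
    fun σ e => by
      simp only [hδ, cavH, siteH, ham, patH, hD, dropLast_snoc, Fin.snoc_last,
        Finset.sum_sub_distrib]
      ring
  rw [hsite]
  refine (abs_av2_tilt_le _ δ hF).trans ?_
  rw [mul_assoc 4 (Real.exp _), gav_cavH]
  refine mul_le_mul_of_nonneg_left ?_ (by norm_num)
  set M : Cube N → ℝ := fun σ => remBound f A T b.1 z σ / (2 * η) +
    η * ((∑ e, growW A f b.1 z σ e) / 2 +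
      Real.exp (2 * n * bCav A T N) * Real.cosh (2 * cY f b.1 z σ))
  have hE : ∀ σ, Real.exp (-(n * bCav A T N)) ≤ Real.exp (cB f T b.1 σ) ∧
      Real.exp (2 * cB f T b.1 σ) ≤ Real.exp (2 * n * bCav A T N) := fun σ =>
    ⟨Real.exp_le_exp.2 (abs_le.1 (abs_cB_le hf hT b.1 σ)).1,
      Real.exp_le_exp.2 (by linarith [(abs_le.1 (abs_cB_le hf hT b.1 σ)).2])⟩
  have hden : Real.exp (-(n * bCav A T N)) ≤
      gav H fun σ => Real.cosh (cY f b.1 z σ) * Real.exp (cB f T b.1 σ) := by
    rw [← gav_const H (Real.exp (-_))]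
    exact gav_mono H fun σ =>
      (hE σ).1.trans (le_mul_of_one_le_left (Real.exp_pos _).le (Real.one_le_cosh _))
  have hterm : ∀ σ e, cavW f T b.1 z σ e * |Real.exp (δ (Fin.snoc σ e)) - 1| ≤
      remBound f A T b.1 z σ / (2 * η) +
        η * (growW A f b.1 z σ e + Real.exp (2 * (sgn e * cY f b.1 z σ + cB f T b.1 σ))) := by
    intro σ e
    set u := D σ e
    set w := sgn e * cY f b.1 z σ + cB f T b.1 σ with hw
    have hr : (u - w) ^ 2 ≤ remBound f A T b.1 z σ := sq_dev_le hN hf b.1 z σ e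
    have h2 : |Real.exp u - Real.exp w| ≤ |u - w| * (Real.exp u + Real.exp w) := by
      rcases le_total w u with h | h
      · rw [abs_of_nonneg (sub_nonneg.2 (Real.exp_le_exp.2 h)), abs_of_nonneg (sub_nonneg.2 h)]
        have h3 := Real.add_one_le_exp (w - u)
        rw [Real.exp_sub, le_div_iff₀ (Real.exp_pos _)] at h3
        nlinarith [mul_nonneg (sub_nonneg.2 h) (Real.exp_pos w).le]
      · rw [abs_of_nonpos (sub_nonpos.2 (Real.exp_le_exp.2 h)), abs_of_nonpos (sub_nonpos.2 h)]
        have h3 := Real.add_one_le_exp (u - w)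
        rw [Real.exp_sub, le_div_iff₀ (Real.exp_pos _)] at h3
        nlinarith [mul_nonneg (sub_nonneg.2 h) (Real.exp_pos u).le]
    have e1 : cavW f T b.1 z σ e * |Real.exp (δ (Fin.snoc σ e)) - 1| =
        |Real.exp u - Real.exp w| := by
      rw [cavW, ← hw, hδe, ← abs_of_pos (Real.exp_pos w), ← abs_mul, abs_of_pos (Real.exp_pos w),
        mul_sub, mul_one, ← Real.exp_add]
      congr 3
      ring
    rw [e1]
    refine h2.trans ?_
    set v := |u - w| with hv
    have hv2 : v ^ 2 ≤ remBound f A T b.1 z σ := by rw [hv, sq_abs]; exact hr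
    have h4 : v * (Real.exp u + Real.exp w) ≤
        v ^ 2 / (2 * η) + η * (Real.exp u ^ 2 + Real.exp w ^ 2) := by
      rw [div_add' _ _ _ (by positivity), le_div_iff₀ (by positivity)]
      nlinarith [sq_nonneg (v - η * (Real.exp u + Real.exp w)),
        mul_nonneg (mul_nonneg hη.le hη.le) (sq_nonneg (Real.exp u - Real.exp w))]
    refine h4.trans (add_le_add (div_le_div_of_nonneg_right hv2 (by positivity))
      (mul_le_mul_of_nonneg_left (add_le_add ?_ (le_of_eq ?_)) hη.le))
    · rw [← Real.exp_nat_mul]; exact exp_two_le hN hf b.1 z σ e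
    · rw [← Real.exp_nat_mul]; norm_num
  have hnum : gav H (fun σ => (∑ e, cavW f T b.1 z σ e *
      |Real.exp (δ (Fin.snoc σ e)) - 1|) / 2) ≤ gav H M := gav_mono H fun σ => by
    refine (div_le_div_of_nonneg_right (Finset.sum_le_sum fun e _ => hterm σ e) two_pos.le).trans ?_
    have h1 : Real.exp (2 * (sgn true * cY f b.1 z σ + cB f T b.1 σ)) +
        Real.exp (2 * (sgn false * cY f b.1 z σ + cB f T b.1 σ)) ≤
        2 * (Real.exp (2 * n * bCav A T N) * Real.cosh (2 * cY f b.1 z σ)) := by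
      simp only [sgn, if_true, Bool.false_eq_true, if_false, mul_add, Real.exp_add, one_mul,
        neg_one_mul, mul_neg, Real.cosh_eq]
      have h0 : 0 ≤ Real.exp (2 * cY f b.1 z σ) + Real.exp (-(2 * cY f b.1 z σ)) := by positivity
      have := mul_le_mul_of_nonneg_left (hE σ).2 h0
      linarith
    have h2 := mul_le_mul_of_nonneg_left h1 hη.le
    simp only [M, Fintype.sum_bool]
    linarith
  have hd0 := (Real.exp_pos _).trans_le hden
  rw [div_le_iff₀ hd0]
  have h0 : 0 ≤ gav H M := (Finset.sum_nonneg fun σ _ => mul_nonneg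
    (Vale.Agent.P168.Limit.gw_nonneg _ _) (div_nonneg (Finset.sum_nonneg fun e _ =>
      mul_nonneg (Real.exp_pos _).le (abs_nonneg _)) two_pos.le)).trans hnum
  refine hnum.trans ?_
  have h1 : 1 ≤ Real.exp (n * bCav A T N) *
      gav H fun σ => Real.cosh (cY f b.1 z σ) * Real.exp (cB f T b.1 σ) := by
    refine le_trans ?_ (mul_le_mul_of_nonneg_left hden (Real.exp_pos _).le)
    rw [← Real.exp_add, add_neg_cancel, Real.exp_zero]
  calc gav H M ≤ gav H M * (Real.exp (n * bCav A T N) *
        gav H fun σ => Real.cosh (cY f b.1 z σ) * Real.exp (cB f T b.1 σ)) :=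
      le_mul_of_one_le_right h0 h1
    _ = _ := by ring

/-- The error at a bounded ratio of patterns to sites. -/
def expandErr (A T β η : ℝ) (N : ℕ) : ℝ :=
  4 * Real.exp (β * (A + T * A)) *
    (Real.exp (2 * A) * A ^ 2 * (β + β ^ 2) *
        ((m₄ + 24300 * (1 + 2 * m₆)) / N + tail T) / (2 * η) +
      η * ((1 + Real.exp (2 * A) * ∫ y, Real.exp (A * β * |y|) ∂gaussianReal 0 1) *
          Real.exp (β * (4 * A ^ 2 + 8 * A)) +
        Real.exp (β * (A + T * A)) * Real.exp (2 * β * A ^ 2)))

/-- The cavity description at a given number of patterns. -/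
theorem av2_site (hN : 0 < N) (hf : Smooth f A) (hT : 0 ≤ T) (hNA : 16 * A ≤ N) {η : ℝ}
    (hη : 0 < η) {β : ℝ} (hn : (n : ℝ) ≤ β * N) {F : Cube (N + 1) → Cube (N + 1) → ℝ}
    (hF : ∀ a a', |F a a'| ≤ 1) :
    |(∫ p : Base N L n × (Fin n → ℝ), av2 (siteH f s x p.1 p.2) F
        ∂(baseLaw N L n).prod (gam (Fin n))) -
      ∫ p : Base N L n × (Fin n → ℝ), av2 (cavH f T s x p.1 p.2) F
        ∂(baseLaw N L n).prod (gam (Fin n))| ≤ expandErr A T β η N := by
  have hA := Smooth.A_nonneg hf
  have hN0 : (0 : ℝ) < N := Nat.cast_pos.2 hN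
  set u : ℝ := (n : ℝ) / N with hu
  have hu0 : 0 ≤ u := by positivity
  have huβ : u ≤ β := by rw [hu, div_le_iff₀ hN0]; linarith
  have hβ0 : 0 ≤ β := hu0.trans huβ
  set E₀ := Real.exp (n * bCav A T N) with hE₀
  set E₁ := Real.exp (n / N * (4 * A ^ 2 + 8 * A)) with hE₁
  set E₂ := Real.exp (2 * n * bCav A T N) * Real.exp (2 * n * A ^ 2 / N) with hE₂
  set Q : Base N L n → ℝ := fun b =>
    4 * E₀ * ((n * A ^ 2 * m₄ / (2 * N ^ 2) + n * A ^ 2 / N ^ 2 * ∑ a,
        (24300 / N * (1 + m₆ + patObs (fun y => y ^ 6) f s x a b) +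
          patObs (fun y => (y - clampT T y) ^ 2) f s x a b)) / (2 * η) +
      η * ((1 + 1 / n * ∑ a, patObs (fun y => Real.exp (A * β * |y|)) f s x a b) * E₁ + E₂))
    with hQ
  have hms : ∀ σ, Measurable fun p : Base N L n × (Fin n → ℝ) => siteH f s x p.1 p.2 σ := fun σ => by
    unfold siteH patH pertH snocPat
    refine (Finset.measurable_sum _ fun a _ => (continuous_smooth hf).measurable.comp
      (measurable_dot_unit ?_ σ)).add (by fun_prop)
    refine measurable_pi_lambda _ fun i => ?_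
    induction i using Fin.lastCases with
    | last => simp only [Fin.snoc_last]; fun_prop
    | cast i => simp only [Fin.snoc_castSucc]; fun_prop
  have hmc : ∀ σ, Measurable fun p : Base N L n × (Fin n → ℝ) => cavH f T s x p.1 p.2 σ := fun σ => by
    have hd1 := hf.d1.continuous.measurable
    have hd2 := hf.d2.continuous.measurable
    have hg : ∀ a, Measurable fun p : Base N L n × (Fin n → ℝ) =>
        dot (p.1.1 a) (unitVec (dropLast σ)) := fun a => measurable_dot_unit (by fun_prop) _
    have hc := (continuous_clampT (T := T)).measurable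
    unfold cavH cY cB
    refine ((measurable_ham hf _).comp measurable_fst).add
      ((((Finset.measurable_sum _ fun a _ => ((measurable_pi_apply a).comp measurable_snd).mul
        (hd1.comp (hg a))).div_const _).const_mul _).add
        ((Finset.measurable_sum _ fun a _ => ?_).div_const _))
    exact (hd2.comp (hg a)).sub ((hc.comp (hg a)).mul (hd1.comp (hg a)))
  have iS := integrable_av2 (μ := (baseLaw N L n).prod (gam (Fin n))) hms hF
  have iC := integrable_av2 (μ := (baseLaw N L n).prod (gam (Fin n))) hmc hF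
  have inner : ∀ b : Base N L n,
      ∫ z, |av2 (siteH f s x b z) F - av2 (cavH f T s x b z) F| ∂gam (Fin n) ≤ Q b := by
    intro b
    set H := ham f s x b
    set G : Cube N → (Fin n → ℝ) → ℝ := fun σ z => remBound f A T b.1 z σ / (2 * η) +
      η * ((∑ e, growW A f b.1 z σ e) / 2 +
        Real.exp (2 * n * bCav A T N) * Real.cosh (2 * cY f b.1 z σ)) with hG
    have i3 := fun σ => (integrable_finsetSum (Finset.univ : Finset Bool) fun e _ =>
      (integral_growW hN hf hNA b.1 σ e).1).div_const 2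
    have i2 := fun σ => ((i3 σ).add
      ((integral_cosh_le hN hf b.1 σ).1.const_mul (Real.exp (2 * n * bCav A T N)))).const_mul η
    have i1 := fun σ => ((integral_remBound (T := T) hN hf b.1 σ).1.div_const (2 * η))
    have iG : ∀ σ, Integrable (G σ) (gam (Fin n)) := fun σ => (i1 σ).add (i2 σ)
    have iR : Integrable (fun z => 4 * E₀ * ∑ σ, gw H σ * G σ z) (gam (Fin n)) :=
      (integrable_finsetSum _ fun σ _ => (iG σ).const_mul _).const_mul _
    have iL : Integrable (fun z => |av2 (siteH f s x b z) F - av2 (cavH f T s x b z) F|)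
        (gam (Fin n)) :=
      ((integrable_av2 (fun σ => (hms σ).comp measurable_prodMk_left) hF).sub
        (integrable_av2 (fun σ => (hmc σ).comp measurable_prodMk_left) hF)).abs
    refine (integral_mono iL iR fun z => av2_pointwise hN hf hT hη b z hF).trans ?_
    rw [integral_const_mul, integral_finsetSum _ fun σ _ => (iG σ).const_mul _, hQ]
    refine mul_le_mul_of_nonneg_left ?_ (by positivity)
    simp only [integral_const_mul]
    have hb : ∀ σ, ∫ z, G σ z ∂gam (Fin n) ≤
        (n * A ^ 2 * m₄ / (2 * N ^ 2) + n * A ^ 2 / N ^ 2 *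
          ∑ a, (24300 / N * (1 + m₆ + dot (b.1 a) (unitVec σ) ^ 6) +
            (dot (b.1 a) (unitVec σ) - clampT T (dot (b.1 a) (unitVec σ))) ^ 2)) / (2 * η) +
        η * ((1 + 1 / n * ∑ a, Real.exp (A * β * |dot (b.1 a) (unitVec σ)|)) * E₁ + E₂) := by
      intro σ
      simp only [hG]
      have j3 := i2 σ
      simp only [Pi.add_apply] at j3
      rw [integral_add (i1 σ) j3, integral_div, integral_const_mul,
        integral_add (i3 σ) ((integral_cosh_le hN hf b.1 σ).1.const_mul _), integral_div,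
        integral_const_mul,
        integral_finsetSum _ fun e _ => (integral_growW hN hf hNA b.1 σ e).1]
      refine add_le_add (div_le_div_of_nonneg_right (integral_remBound hN hf b.1 σ).2
        (by positivity)) (mul_le_mul_of_nonneg_left (add_le_add ?_
          (mul_le_mul_of_nonneg_left (integral_cosh_le hN hf b.1 σ).2 (Real.exp_pos _).le)) hη.le)
      have h1 := (integral_growW hN hf hNA b.1 σ true).2
      have h2 := (integral_growW hN hf hNA b.1 σ false).2
      have h3 := exp_sum_le (fun a => |dot (b.1 a) (unitVec σ)|) (fun a => abs_nonneg _)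
        (t := A / N) (β := A * β) (by positivity) (by
          rw [div_mul_eq_mul_div, div_le_iff₀ hN0, mul_assoc]
          exact mul_le_mul_of_nonneg_left hn hA)
      have h4 := mul_le_mul_of_nonneg_right h3 (Real.exp_pos (n / N * (4 * A ^ 2 + 8 * A))).le
      rw [Fintype.sum_bool, hE₁]
      linarith
    refine (gav_mono H hb).trans_eq ?_
    simp only [patObs, div_eq_mul_inv, mul_comm _ (2 * η)⁻¹, mul_comm _ E₁, mul_add, Finset.mul_sum,
      Vale.Agent.P168.Limit.gav_add, Vale.Agent.P168.Limit.gav_const_mul,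
      Vale.Agent.P168.Limit.gav_const, Vale.Agent.P168.Limit.gav_sum, H]
  have hexp : Integrable (fun y => Real.exp (A * β * |y|)) (gaussianReal 0 1) :=
    integrable_exp_abs _
  set I := ∫ y, Real.exp (A * β * |y|) ∂gaussianReal 0 1
  have i6 := fun a : Fin n => integrable_patObs (s := s) (x := x) hN hf integrable_pow_six a
  have iT := fun a : Fin n => integrable_patObs (s := s) (x := x) hN hf (integrable_tail hT) a
  have iX := fun a : Fin n => integrable_patObs (s := s) (x := x) hN hf hexp a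
  have j6 : ∀ a : Fin n, Integrable (fun b : Base N L n =>
      24300 / (N : ℝ) * (1 + m₆ + patObs (fun y => y ^ 6) f s x a b) +
        patObs (fun y => (y - clampT T y) ^ 2) f s x a b) (baseLaw N L n) := fun a =>
    (((integrable_const (1 + m₆)).add (i6 a)).const_mul (24300 / (N : ℝ))).add (iT a)
  have jS := (integrable_finsetSum (Finset.univ : Finset (Fin n)) fun a _ => j6 a).const_mul
    ((n : ℝ) * A ^ 2 / N ^ 2)
  have jX := (integrable_finsetSum (Finset.univ : Finset (Fin n)) fun a _ => iX a).const_mul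
    (1 / (n : ℝ))
  have jXE : Integrable (fun b : Base N L n => (1 + 1 / (n : ℝ) *
      ∑ a, patObs (fun y => Real.exp (A * β * |y|)) f s x a b) * E₁) (baseLaw N L n) :=
    ((integrable_const (1 : ℝ)).add jX).mul_const E₁
  have k1 := ((integrable_const ((n : ℝ) * A ^ 2 * m₄ / (2 * N ^ 2))).add jS).div_const (2 * η)
  have k2 := ((((integrable_const (1 : ℝ)).add jX).mul_const E₁).add
    (integrable_const E₂)).const_mul η
  have iQ : Integrable Q (baseLaw N L n) := (k1.add k2).const_mul (4 * E₀)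
  rw [← integral_sub iS iC]
  have iD : Integrable (fun p : Base N L n × (Fin n → ℝ) =>
      |av2 (siteH f s x p.1 p.2) F - av2 (cavH f T s x p.1 p.2) F|)
      ((baseLaw N L n).prod (gam (Fin n))) := (iS.sub iC).abs
  refine abs_integral_le_integral_abs.trans ?_
  rw [integral_prod _ iD]
  refine (integral_mono iD.integral_prod_left iQ inner).trans ?_
  simp only [hQ, Pi.add_apply] at k1 k2 ⊢
  rw [integral_const_mul, integral_add k1 k2, integral_div, integral_const_mul,
    integral_add (integrable_const _) jS, integral_const_mul,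
    integral_finsetSum _ fun a _ => j6 a,
    integral_add jXE (integrable_const _),
    integral_mul_const]
  rw [integral_add (integrable_const _) jX, integral_const_mul (1 / (n : ℝ)),
    integral_finsetSum _ fun a _ => iX a]
  simp only [integral_const, probReal_univ, one_smul]
  have hA2 : 1 ≤ Real.exp (2 * A) := Real.one_le_exp (by linarith)
  have h6 : ∀ a : Fin n, ∫ b : Base N L n,
      (24300 / (N : ℝ) * (1 + m₆ + patObs (fun y => y ^ 6) f s x a b) +
        patObs (fun y => (y - clampT T y) ^ 2) f s x a b) ∂baseLaw N L n ≤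
      Real.exp (2 * A) * (24300 * (1 + 2 * m₆) / N + tail T) := by
    intro a
    have hb6 := ((integrable_const (1 + m₆)).add (i6 a)).const_mul (24300 / (N : ℝ))
    simp only [Pi.add_apply] at hb6
    rw [integral_add hb6 (iT a), integral_const_mul,
      integral_add (integrable_const _) (i6 a), integral_const, probReal_univ, one_smul,
      mul_add (Real.exp (2 * A))]
    refine add_le_add ?_ (integral_patObs_le hN hf
      ((continuous_id.sub continuous_clampT).pow 2).measurable (integrable_tail hT)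
      (fun y => sq_nonneg _) a)
    have h := integral_patObs_le (s := s) (x := x) hN hf (φ := fun y => y ^ 6) (by fun_prop)
      integrable_pow_six (fun y => by positivity) a
    rw [← m₆] at h
    rw [div_mul_eq_mul_div, mul_div_assoc' (Real.exp (2 * A))]
    refine div_le_div_of_nonneg_right ?_ (Nat.cast_nonneg N)
    nlinarith [mul_le_mul_of_nonneg_right hA2 (add_nonneg zero_le_one m₆_nonneg)]
  have hI0 : 0 ≤ I := integral_nonneg fun y => (Real.exp_pos _).le
  have hX : 1 / (n : ℝ) * ∑ a, ∫ b : Base N L n,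
      patObs (fun y => Real.exp (A * β * |y|)) f s x a b ∂baseLaw N L n ≤ Real.exp (2 * A) * I := by
    have h := Finset.sum_le_card_nsmul (Finset.univ : Finset (Fin n)) _ (Real.exp (2 * A) * I)
      fun a _ => integral_patObs_le (s := s) (x := x) hN hf (by fun_prop) hexp
        (fun y => (Real.exp_pos _).le) a
    rw [Finset.card_univ, Fintype.card_fin, nsmul_eq_mul] at h
    refine (mul_le_mul_of_nonneg_left h (by positivity)).trans ?_
    rw [← mul_assoc]
    refine mul_le_of_le_one_left (by positivity) ?_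
    rw [one_div]; exact inv_mul_le_one
  have hE0 : E₀ ≤ Real.exp (β * (A + T * A)) := by
    rw [hE₀, Real.exp_le_exp, bCav, show (n : ℝ) * ((A + T * A) / (2 * N)) = u / 2 * (A + T * A) by
      rw [hu]; ring]
    exact mul_le_mul_of_nonneg_right (by linarith) (by positivity)
  have hE1 : E₁ ≤ Real.exp (β * (4 * A ^ 2 + 8 * A)) := by
    rw [hE₁, Real.exp_le_exp]
    exact mul_le_mul_of_nonneg_right huβ (by positivity)
  have hE2 : E₂ ≤ Real.exp (β * (A + T * A)) * Real.exp (2 * β * A ^ 2) := by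
    rw [hE₂]
    refine mul_le_mul (Real.exp_le_exp.2 ?_) (Real.exp_le_exp.2 ?_) (Real.exp_pos _).le
      (Real.exp_pos _).le
    · rw [bCav, show 2 * (n : ℝ) * ((A + T * A) / (2 * N)) = u * (A + T * A) by
        rw [hu]; field_simp]
      exact mul_le_mul_of_nonneg_right huβ (by positivity)
    · rw [show 2 * (n : ℝ) * A ^ 2 / N = 2 * u * A ^ 2 by rw [hu]; ring]
      exact mul_le_mul_of_nonneg_right (by linarith) (sq_nonneg A)
  have hB0 : 0 ≤ tail T := integral_nonneg fun _ => sq_nonneg _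
  have hm4 := m₄_nonneg
  have hm6 := m₆_nonneg
  have hs := (Finset.sum_le_card_nsmul (Finset.univ : Finset (Fin n)) _ _ fun a _ => h6 a)
  rw [Finset.card_univ, Fintype.card_fin, nsmul_eq_mul] at hs
  have hR : (n : ℝ) * A ^ 2 * m₄ / (2 * N ^ 2) + n * A ^ 2 / N ^ 2 * (∑ a : Fin n, ∫ b : Base N L n,
      (24300 / (N : ℝ) * (1 + m₆ + patObs (fun y => y ^ 6) f s x a b) +
        patObs (fun y => (y - clampT T y) ^ 2) f s x a b) ∂baseLaw N L n) ≤
      Real.exp (2 * A) * A ^ 2 * (β + β ^ 2) * ((m₄ + 24300 * (1 + 2 * m₆)) / N + tail T) := by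
    refine (add_le_add le_rfl (mul_le_mul_of_nonneg_left hs (by positivity))).trans ?_
    set B := (m₄ + 24300 * (1 + 2 * m₆)) / (N : ℝ) + tail T with hBdef
    have hB1 : m₄ / N / 2 ≤ Real.exp (2 * A) * B := by
      refine le_trans ?_ (le_mul_of_one_le_left (by positivity) hA2)
      have : 0 ≤ 24300 * (1 + 2 * m₆) / (N : ℝ) := by positivity
      have : 0 ≤ m₄ / (N : ℝ) := by positivity
      rw [hBdef, add_div]
      linarith
    have hB2 : 24300 * (1 + 2 * m₆) / (N : ℝ) + tail T ≤ B := by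
      rw [hBdef, add_div]
      linarith [show 0 ≤ m₄ / (N : ℝ) by positivity]
    have hB : 0 ≤ B := le_trans (by positivity) hB2
    calc _ = u * A ^ 2 * (m₄ / N / 2) +
          u ^ 2 * A ^ 2 * (Real.exp (2 * A) * (24300 * (1 + 2 * m₆) / N + tail T)) := by
          rw [hu]; ring
      _ ≤ β * A ^ 2 * (Real.exp (2 * A) * B) + β ^ 2 * A ^ 2 * (Real.exp (2 * A) * B) := by
          refine add_le_add (mul_le_mul (by gcongr) hB1 (by positivity) (by positivity))
            (mul_le_mul (by gcongr) (mul_le_mul_of_nonneg_left hB2 (Real.exp_pos _).le)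
              (by positivity) (by positivity))
      _ = _ := by ring
  rw [expandErr]
  refine mul_le_mul (mul_le_mul_of_nonneg_left hE0 (by norm_num))
    (add_le_add (div_le_div_of_nonneg_right hR (by positivity))
      (mul_le_mul_of_nonneg_left (add_le_add (mul_le_mul (add_le_add le_rfl hX) hE1
        (Real.exp_pos _).le (by positivity)) hE2) hη.le)) ?_ (by positivity)
  have p1 : ∀ a : Fin n, 0 ≤ ∫ b : Base N L n, (24300 / (N : ℝ) *
      (1 + m₆ + patObs (fun y => y ^ 6) f s x a b) +
        patObs (fun y => (y - clampT T y) ^ 2) f s x a b) ∂baseLaw N L n := fun a =>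
    integral_nonneg fun b => by
      have h1 : 0 ≤ patObs (fun y => y ^ 6) f s x a b := Finset.sum_nonneg fun σ _ =>
        mul_nonneg (Vale.Agent.P168.Limit.gw_nonneg _ _) (by positivity)
      have h2 : 0 ≤ patObs (fun y => (y - clampT T y) ^ 2) f s x a b := Finset.sum_nonneg fun σ _ =>
        mul_nonneg (Vale.Agent.P168.Limit.gw_nonneg _ _) (sq_nonneg _)
      positivity
  have p2 : ∀ a : Fin n, 0 ≤ ∫ b : Base N L n,
      patObs (fun y => Real.exp (A * β * |y|)) f s x a b ∂baseLaw N L n := fun a =>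
    integral_nonneg fun b => Finset.sum_nonneg fun σ _ =>
      mul_nonneg (Vale.Agent.P168.Limit.gw_nonneg _ _) (Real.exp_pos _).le
  have q1 := Finset.sum_nonneg (s := (Finset.univ : Finset (Fin n))) fun a _ => p1 a
  have q2 := Finset.sum_nonneg (s := (Finset.univ : Finset (Fin n))) fun a _ => p2 a
  refine add_nonneg (div_nonneg (add_nonneg (by positivity) (mul_nonneg (by positivity) q1))
    (by positivity)) (mul_nonneg hη.le (add_nonneg (mul_nonneg (add_nonneg zero_le_one
      (mul_nonneg (by positivity) q2)) (Real.exp_pos _).le) ?_))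
  rw [hE₂]
  positivity

end Vale.Agent.P157.Parisi.Full.CavPair
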