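import Vale.Agent.P157.Full.CavPair.Tools

/-!
Two replicas under the perturbation of `N + 1` sites against the one of the first `N` sites.
-/

noncomputable section

open MeasureTheory ProbabilityTheory
open scoped BigOperators

namespace Vale.Agent.P157.Parisi.Full.CavPair

open Vale.Agent.P168.Limit.SelfAvg (field)
open Cavity

variable {N L : ℕ}

/-- The two perturbations give close means of two replicas. -/
theorem av2_site_compare (hN : 0 < N) (A : Cube (N + 1) → ℝ) (s : ℝ) {x : Fin L → ℝ}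
    (hx : ∀ i, x i ∈ Set.Icc (1 : ℝ) 2) {F : Cube (N + 1) → Cube (N + 1) → ℝ}
    (hF : ∀ a b, |F a b| ≤ 1) {h : ℝ} (hh0 : 0 < h) (hh1 : h ≤ 1) :
    |∫ J, av2 (fun σ => A σ + pertH s x J σ) F ∂gam (PertIdx (N + 1) L) -
      ∫ J, av2 (fun σ => A σ + pertH s x J (dropLast σ)) F ∂gam (PertIdx N L)| ≤
      16 * s ^ 2 / (N + 1) / h + h := by
  classical
  set θ : ℝ := N / (N + 1) with hθ
  have hθ0 : 0 ≤ θ := by positivity
  have hθ1 : θ ≤ 1 := (div_le_one (by positivity)).2 (by linarith)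
  have hρ : ∀ k : ℕ, 0 ≤ 1 - θ ^ k := fun k => sub_nonneg.2 (pow_le_one₀ hθ0 hθ1)
  set φ₀ : Cube (N + 1) → PertIdx N L → ℝ :=
    fun σ c => Real.sqrt (θ ^ (c.1.val + 1)) * pcoef s x (dropLast σ) c with hφ₀
  set ψ₂ : Cube (N + 1) → PertIdx N L → ℝ :=
    fun σ c => Real.sqrt (1 - θ ^ (c.1.val + 1)) * pcoef s x (dropLast σ) c with hψ₂
  set ψ₁ : Cube (N + 1) → PertIdx (N + 1) L → ℝ :=
    fun σ c => if ∀ i, c.2 i ≠ Fin.last N then 0 else pcoef s x σ c with hψ₁
  have key : ∀ (w : PertIdx N L → ℝ) (σ τ : Cube (N + 1)), (∀ c, 0 ≤ w c) →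
      ∑ c, (Real.sqrt (w c) * pcoef s x (dropLast σ) c) *
        (Real.sqrt (w c) * pcoef s x (dropLast τ) c) =
      ∑ c, w c * (pcoef s x (dropLast σ) c * pcoef s x (dropLast τ) c) := fun w σ τ hw =>
    Finset.sum_congr rfl fun c _ => by
      rw [mul_mul_mul_comm, Real.mul_self_sqrt (hw c)]
  have h0 : ∀ σ τ, ∑ c, φ₀ σ c * φ₀ τ c =
      ∑ p, amp s x p ^ 2 * (θ * overlap (dropLast σ) (dropLast τ)) ^ (p.val + 1) := by
    intro σ τ
    rw [key (fun c => θ ^ (c.1.val + 1)) σ τ fun _ => pow_nonneg hθ0 _]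
    have := pcov_filter s x (dropLast σ) (dropLast τ) fun _ => θ
    simp only [Finset.prod_const, Finset.card_univ, Fintype.card_fin] at this
    rw [← Finset.sum_mul, sum_unitVec_mul] at this
    simp only [mul_comm θ]
    rw [← this]
    exact Finset.sum_congr rfl fun c _ => mul_comm _ _
  have h₁ : ∀ σ τ, ∑ c, pcoef s x σ c * pcoef s x τ c =
      ∑ c, φ₀ σ c * φ₀ τ c + ∑ c, ψ₁ σ c * ψ₁ τ c := by
    intro σ τ
    have h := pcov_filter s x σ τ fun i => if i = Fin.last N then 0 else 1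
    have e : ∑ i, unitVec σ i * unitVec τ i * (if i = Fin.last N then 0 else 1) =
        θ * overlap (dropLast σ) (dropLast τ) := by
      rw [Fin.sum_univ_castSucc, ← sum_unitVec_mul, Finset.mul_sum]
      simp only [if_neg (Fin.castSucc_ne_last _), if_true, mul_zero, add_zero, mul_one]
      refine Finset.sum_congr rfl fun i _ => ?_
      rw [unitVec_castSucc, unitVec_castSucc, mul_mul_mul_comm, Real.mul_self_sqrt hθ0]
    rw [e, ← h0] at h
    rw [← h, ← Finset.sum_add_distrib]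
    refine Finset.sum_congr rfl fun c _ => ?_
    by_cases hc : ∀ i, c.2 i ≠ Fin.last N
    · simp [hψ₁, hc]
    · obtain ⟨i, hi⟩ := not_forall_not.1 hc
      rw [Finset.prod_eq_zero (Finset.mem_univ i) (by simp [hi])]
      simp [hψ₁, hc]
  have h₂ : ∀ σ τ : Cube (N + 1),
      ∑ c, pcoef s x (dropLast σ) c * pcoef s x (dropLast τ) c =
      ∑ c, φ₀ σ c * φ₀ τ c + ∑ c, ψ₂ σ c * ψ₂ τ c := by
    intro σ τ
    rw [key (fun c => θ ^ (c.1.val + 1)) σ τ fun _ => pow_nonneg hθ0 _,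
      key (fun c => 1 - θ ^ (c.1.val + 1)) σ τ fun _ => hρ _, ← Finset.sum_add_distrib]
    exact Finset.sum_congr rfl fun c _ => by ring
  have hb : ∑ p, amp s x p ^ 2 * (1 - θ ^ (p.val + 1)) ≤ 4 * s ^ 2 / (N + 1) := by
    calc ∑ p, amp s x p ^ 2 * (1 - θ ^ (p.val + 1))
        ≤ ∑ p : Fin L, 4 * s ^ 2 * (1 / 4) ^ (p.val + 1) * ((p.val + 1 : ℕ) / (N + 1 : ℝ)) := by
          refine Finset.sum_le_sum fun p _ => mul_le_mul (amp_sq_le hx p) ?_ (hρ _) (by positivity)
          have hb := one_add_mul_le_pow (a := θ - 1) (by linarith) (p.val + 1)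
          rw [show 1 + (θ - 1) = θ by ring] at hb
          have : θ - 1 = -1 / (N + 1 : ℝ) := by rw [hθ]; field_simp; ring
          rw [this, mul_div_assoc', mul_neg_one, neg_div] at hb
          linarith
      _ ≤ ∑ p : Fin L, 4 * s ^ 2 / (N + 1) * (1 / 2) ^ (p.val + 1) := by
          refine Finset.sum_le_sum fun p _ => ?_
          have h2 : ((p.val + 1 : ℕ) : ℝ) ≤ 2 ^ (p.val + 1) := by
            exact_mod_cast (Nat.lt_two_pow_self (n := p.val + 1)).le
          calc 4 * s ^ 2 * (1 / 4) ^ (p.val + 1) * ((p.val + 1 : ℕ) / (N + 1 : ℝ))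
              = 4 * s ^ 2 / (N + 1) * ((1 / 4) ^ (p.val + 1) * (p.val + 1 : ℕ)) := by ring
            _ ≤ 4 * s ^ 2 / (N + 1) * ((1 / 4) ^ (p.val + 1) * 2 ^ (p.val + 1)) := by gcongr
            _ = _ := by rw [← mul_pow]; norm_num
      _ ≤ _ := by
          rw [← Finset.mul_sum]
          exact mul_le_of_le_one_right (by positivity) (sum_half_pow_le L)
  have hd : ∀ σ, ∑ p, amp s x p ^ 2 * (1 - θ ^ (p.val + 1)) =
      (∑ p, amp s x p ^ 2) - ∑ c, φ₀ σ c * φ₀ σ c := by
    intro σ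
    rw [h0, overlap_self hN, mul_one, ← Finset.sum_sub_distrib]
    exact Finset.sum_congr rfl fun p _ => by ring
  have := av2_field_compare A (pcoef s x) (fun σ => pcoef s x (dropLast σ)) φ₀ ψ₁ ψ₂ h₁ h₂
    (v := 4 * s ^ 2 / (N + 1)) (fun σ => by
      have h := h₁ σ σ
      simp only [← sq] at h
      rw [pvar (Nat.succ_pos N)] at h
      have := hd σ
      simp only [← sq] at this
      linarith)
    (fun σ => by
      have h := h₂ σ σ
      simp only [← sq] at h
      rw [pvar hN] at h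
      have := hd σ
      simp only [← sq] at this
      linarith) hF hh0 hh1
  simp only [pertH_eq]
  refine le_of_le_of_eq this (by ring)

end Vale.Agent.P157.Parisi.Full.CavPair
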