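import Vale.Agent.P157.Full.CavPair.Expand
import Vale.Agent.P157.Full.CavPair.Pert
import Vale.Agent.P157.Full.CavPair.Exchange
import Vale.Agent.P157.Full.Statements

/-!
Module L1: the two cavity averages agree.
-/

noncomputable section

open MeasureTheory ProbabilityTheory Filter
open scoped BigOperators NNReal Topology

namespace Vale.Agent.P157.Parisi.Full.CavPair

open Vale.Agent.P168.Limit (gw gav)
open Vale.Agent.P168.Toolkit (integrable_count integral_count)
open Cavity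

variable {N L n : ℕ} {f : ℝ → ℝ} {A s T : ℝ} {x : Fin L → ℝ}

/-- An observable of two replicas of the larger system. -/
def obsF (j : ℕ) (c : Bool → ℝ) (a a' : Cube (N + 1)) : ℝ :=
  overlap (dropLast a) (dropLast a') ^ j * (c (a (Fin.last N)) * c (a' (Fin.last N)))

lemma abs_obsF_le (j : ℕ) {c : Bool → ℝ} (hc : ∀ e, |c e| ≤ 1) (a a' : Cube (N + 1)) :
    |obsF j c a a'| ≤ 1 := by
  rw [obsF, abs_mul, abs_mul, abs_pow]
  exact mul_le_one₀ (pow_le_one₀ (abs_nonneg _) (Perturb.abs_overlap_le _ _)) (by positivity)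
    (mul_le_one₀ (hc _) (abs_nonneg _) (hc _))

lemma abs_sgn (e : Bool) : |sgn e| ≤ 1 := by cases e <;> simp [sgn]

lemma measurable_cavH (hf : Smooth f A) (σ : Cube (N + 1)) :
    Measurable fun p : Cavity.Base N L n × (Fin n → ℝ) => cavH f T s x p.1 p.2 σ := by
  have hd1 := hf.d1.continuous.measurable
  have hd2 := hf.d2.continuous.measurable
  have hg : ∀ a, Measurable fun p : Cavity.Base N L n × (Fin n → ℝ) =>
      dot (p.1.1 a) (unitVec (dropLast σ)) := fun a => measurable_dot_unit (by fun_prop) _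
  have hc := (continuous_clampT (T := T)).measurable
  unfold cavH cY cB
  refine ((measurable_ham hf _).comp measurable_fst).add
    ((((Finset.measurable_sum _ fun a _ => ((measurable_pi_apply a).comp measurable_snd).mul
      (hd1.comp (hg a))).div_const _).const_mul _).add
      ((Finset.measurable_sum _ fun a _ => ?_).div_const _))
  exact (hd2.comp (hg a)).sub ((hc.comp (hg a)).mul (hd1.comp (hg a)))

/-- The cavity average at `n` patterns. -/
def pairN (f : ℝ → ℝ) (T s : ℝ) (x : Fin L → ℝ) (N n : ℕ) (j : ℕ) (c : Bool → ℝ) : ℝ :=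
  ∫ p : Cavity.Base N L n × (Fin n → ℝ), av2 (cavH f T s x p.1 p.2) (obsF j c)
    ∂(baseLaw N L n).prod (gam (Fin n))

lemma integral_av2_take (hf : Smooth f A) (b : Cavity.Base N L n) (j : ℕ) (c : Bool → ℝ) :
    ∫ z, av2 (cavH f T s x b (fun a : Fin n => z a)) (obsF j c)
        ∂(Measure.infinitePi fun _ : ℕ => gaussianReal 0 1) =
      ∫ z, av2 (cavH f T s x b z) (obsF j c) ∂gam (Fin n) := by
  have hmp := measurePreserving_take_real n
  have hmz : Measurable fun z : Fin n → ℝ => av2 (cavH f T s x b z) (obsF j c) := by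
    refine measurable_av2 (fun σ => ?_) _
    have h : Measurable (fun p : Cavity.Base N L n × (Fin n → ℝ) =>
        cavH f T s x p.1 p.2 σ) := measurable_cavH hf σ
    have hp : Measurable fun z : Fin n → ℝ => ((b, z) : Cavity.Base N L n × (Fin n → ℝ)) :=
      measurable_prodMk_left
    exact (h.comp hp : _)
  rw [← hmp.map_eq, integral_map hmp.measurable.aemeasurable hmz.aestronglyMeasurable]

theorem cavPair_eq (hf : Smooth f A) (μ : ℝ) (j : ℕ) {c : Bool → ℝ} (hc : ∀ e, |c e| ≤ 1)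
    {ψ : ℝ → ℝ} (hψ : ∀ (n : ℕ) (g : Fin n → Fin N → ℝ) (z : Fin n → ℝ) (σ : Cube N),
      (∑ e, cavW f T g z σ e * c e) / 2 = ψ (cY f g z σ) * Real.exp (cB f T g σ)) :
    cavPair N f T s x μ j Real.cosh ψ =
      ∫ n, pairN f T s x N n j c ∂poissonMeasure μ.toNNReal := by
  set G : (n : ℕ) → Cavity.Base N L n → ℝ := fun n b =>
    ∫ z, av2 (cavH f T s x b z) (obsF j c) ∂gam (Fin n)
  have hm : ∀ n, Measurable (G n) := fun n =>
    ((measurable_av2 (H := fun p : Cavity.Base N L n × (Fin n → ℝ) => cavH f T s x p.1 p.2)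
      (fun σ => measurable_cavH hf σ) (obsF j c)).stronglyMeasurable.integral_prod_right'
        (ν := gam (Fin n))).measurable
  have h := integral_disLaw μ G hm (K₀ := 1) (K := 0) (k := fun _ => 0) fun n b => by
    simp only [jBound, zero_mul, Finset.sum_const_zero, add_zero, G, ← Real.norm_eq_abs]
    refine (norm_integral_le_of_norm_le_const (C := 1) (ae_of_all _ fun z => ?_)).trans_eq (by simp)
    exact abs_av2_le _ fun a a' => abs_obsF_le j hc a a'
  refine (Eq.trans ?_ h).trans (integral_congr_ae (ae_of_all _ fun n => ?_))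
  · refine integral_congr_ae (ae_of_all _ fun d => ?_)
    show _ = ∫ z, av2 (cavH f T s x _ z) (obsF j c) ∂gam (Fin d.1)
    rw [← integral_av2_take hf]
    refine integral_congr_ae (ae_of_all _ fun z => ?_)
    dsimp only
    unfold obsF
    refine Eq.trans ?_ (av2_cavH _ _ (fun σ τ => overlap σ τ ^ j) c).symm
    simp only [hψ]
    simp only [gw, sysState, cavY, cavB, cY, cB, ham, patH, totalH, Finset.sum_range]
  · exact (integral_prod _ (integrable_av2 (fun σ => measurable_cavH hf σ)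
      (fun a a' => abs_obsF_le j hc a a'))).symm

lemma overlap_dropLast (hN : 0 < N) (σ τ : Cube (N + 1)) :
    |overlap (dropLast σ) (dropLast τ) - overlap σ τ| ≤ 2 / (N + 1) := by
  have hN0 : (0 : ℝ) < N := Nat.cast_pos.2 hN
  set R := overlap (dropLast σ) (dropLast τ) with hR
  set p := sv σ (Fin.last N) * sv τ (Fin.last N)
  have hp : |p| ≤ 1 := by rw [abs_mul, Perturb.abs_sv, Perturb.abs_sv, mul_one]
  have e : overlap σ τ = (N * R + p) / (N + 1) := by
    rw [hR, overlap, overlap, Fin.sum_univ_castSucc, mul_div_cancel₀ _ hN0.ne']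
    push_cast
    rfl
  have hR1 : |R| ≤ 1 := Perturb.abs_overlap_le _ _
  rw [e, sub_div' (by positivity), abs_div, abs_of_pos (by positivity : (0 : ℝ) < N + 1),
    show R * (N + 1) - (N * R + p) = R - p by ring]
  exact div_le_div_of_nonneg_right ((abs_sub _ _).trans (by linarith)) (by positivity)

/-- The mean of two replicas of the larger system with its own perturbation. -/
def fullN (f : ℝ → ℝ) (s : ℝ) (x : Fin L → ℝ) (N n : ℕ) (F : Cube (N + 1) → Cube (N + 1) → ℝ) :
    ℝ := ∫ b : Cavity.Base (N + 1) L n, av2 (ham f s x b) F ∂baseLaw (N + 1) L n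

lemma abs_pairN_sub_fullN (hN : 0 < N) (hf : Smooth f A) (hT : 0 ≤ T) (hNA : 16 * A ≤ N) {η : ℝ}
    (hη : 0 < η) {β : ℝ} (hn : (n : ℝ) ≤ β * N) (hx : ∀ i, x i ∈ Set.Icc (1 : ℝ) 2) {h : ℝ}
    (h0 : 0 < h) (h1 : h ≤ 1) (j : ℕ) {c : Bool → ℝ} (hc : ∀ e, |c e| ≤ 1) :
    |pairN f T s x N n j c - fullN f s x N n (obsF j c)| ≤
      expandErr A T β η N + (16 * s ^ 2 / (N + 1) / h + h) := by
  set F : Cube (N + 1) → Cube (N + 1) → ℝ := obsF j c
  have hF : ∀ a a', |F a a'| ≤ 1 := fun a a' => abs_obsF_le j hc a a'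
  have e1 := av2_site (L := L) (n := n) (s := s) (x := x) hN hf hT hNA hη hn hF
  set Q := (Measure.pi fun _ : Fin n => gam (Fin (N + 1))).prod (gam (PertIdx N L))
  have hi : Integrable (fun q : (Fin n → Fin (N + 1) → ℝ) × (PertIdx N L → ℝ) =>
      av2 (fun σ => patH f q.1 σ + pertH s x q.2 (dropLast σ)) F) Q :=
    integrable_av2 (fun σ => ((measurable_patH hf σ).comp measurable_fst).add
      (by unfold pertH; fun_prop)) hF
  have hi' : Integrable (fun b : Cavity.Base (N + 1) L n => av2 (ham f s x b) F) (baseLaw (N + 1) L n) :=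
    integrable_av2 (fun σ => measurable_ham hf σ) hF
  have hmp := measurePreserving_grow N L n
  have e2 : ∫ p : Cavity.Base N L n × (Fin n → ℝ), av2 (siteH f s x p.1 p.2) F
      ∂(baseLaw N L n).prod (gam (Fin n)) =
      ∫ g, ∫ J, av2 (fun σ => patH f g σ + pertH s x J (dropLast σ)) F ∂gam (PertIdx N L)
        ∂Measure.pi fun _ : Fin n => gam (Fin (N + 1)) := by
    rw [← integral_prod _ hi, ← hmp.map_eq, integral_map hmp.measurable.aemeasurable
      (by rw [hmp.map_eq]; exact hi.aestronglyMeasurable)]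
    rfl
  have e3 : fullN f s x N n F =
      ∫ g, ∫ J, av2 (fun σ => patH f g σ + pertH s x J σ) F ∂gam (PertIdx (N + 1) L)
        ∂Measure.pi fun _ : Fin n => gam (Fin (N + 1)) := integral_prod _ hi'
  have hd : |(∫ g, ∫ J, av2 (fun σ => patH f g σ + pertH s x J σ) F ∂gam (PertIdx (N + 1) L)
        ∂Measure.pi fun _ : Fin n => gam (Fin (N + 1))) -
      ∫ g, ∫ J, av2 (fun σ => patH f g σ + pertH s x J (dropLast σ)) F ∂gam (PertIdx N L)
        ∂Measure.pi fun _ : Fin n => gam (Fin (N + 1))| ≤ 16 * s ^ 2 / (N + 1) / h + h :=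
    abs_integral_pi_sub hi'.integral_prod_left hi.integral_prod_left
      fun g => av2_site_compare hN (patH f g) s hx hF h0 h1
  rw [show pairN f T s x N n j c = ∫ p : Cavity.Base N L n × (Fin n → ℝ),
      av2 (cavH f T s x p.1 p.2) F ∂(baseLaw N L n).prod (gam (Fin n)) from rfl, e3]
  rw [e2] at e1
  have a1 := abs_le.1 e1
  have a2 := abs_le.1 hd
  rw [abs_le]
  constructor <;> linarith

/-- The two averages at `n` patterns. -/
theorem abs_pairN_sub (hN : 0 < N) (hf : Smooth f A) (hT : 0 ≤ T) (hNA : 16 * A ≤ N) {η : ℝ}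
    (hη : 0 < η) {β : ℝ} (hn : (n : ℝ) ≤ β * N) (hx : ∀ i, x i ∈ Set.Icc (1 : ℝ) 2) {h : ℝ}
    (h0 : 0 < h) (h1 : h ≤ 1) (k : ℕ) :
    |pairN f T s x N n k sgn - pairN f T s x N n (k + 1) (fun _ => 1)| ≤
      2 * (expandErr A T β η N + (16 * s ^ 2 / (N + 1) / h + h)) +
        4 * (k + 1 : ℕ) / (N + 1 : ℝ) := by
  have t1 := abs_le.1 (abs_pairN_sub_fullN (T := T) (s := s) hN hf hT hNA hη hn hx h0 h1 k
    (c := sgn) abs_sgn)
  have t2 := abs_le.1 (abs_pairN_sub_fullN (T := T) (s := s) hN hf hT hNA hη hn hx h0 h1 (k + 1)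
    (c := fun _ => 1) fun _ => by simp)
  have hpow : ∀ (j : ℕ) (σ τ : Cube (N + 1)),
      |overlap (dropLast σ) (dropLast τ) ^ j - overlap σ τ ^ j| ≤ 2 * j / (N + 1 : ℝ) := by
    intro j σ τ
    refine (abs_pow_sub_pow_le ..).trans ?_
    refine (mul_le_of_le_one_right (by positivity) (pow_le_one₀ (le_max_of_le_left (abs_nonneg _))
      (max_le (Perturb.abs_overlap_le _ _) (Perturb.abs_overlap_le _ _)))).trans ?_
    exact (mul_le_mul_of_nonneg_right (overlap_dropLast hN σ τ) (Nat.cast_nonneg j)).trans_eq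
      (by ring)
  have hchange : ∀ (j : ℕ) (c : Bool → ℝ), (∀ e, |c e| ≤ 1) →
      |fullN f s x N n (obsF j c) - fullN f s x N n (fun σ τ =>
        overlap σ τ ^ j * (c (σ (Fin.last N)) * c (τ (Fin.last N))))| ≤ 2 * j / (N + 1 : ℝ) := by
    intro j c hc
    refine abs_integral_pi_sub (integrable_av2 (fun σ => measurable_ham hf σ)
      (fun a a' => abs_obsF_le j hc a a')) (integrable_av2 (fun σ => measurable_ham hf σ)
      (B := 1) fun σ τ => ?_) fun b => abs_av2_sub_le _ fun σ τ => ?_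
    · rw [abs_mul, abs_mul, abs_pow]
      exact mul_le_one₀ (pow_le_one₀ (abs_nonneg _) (Perturb.abs_overlap_le _ _)) (by positivity)
        (mul_le_one₀ (hc _) (abs_nonneg _) (hc _))
    · rw [obsF, ← sub_mul, abs_mul, abs_mul]
      refine le_trans ?_ (hpow j σ τ)
      exact mul_le_of_le_one_right (abs_nonneg _) (mul_le_one₀ (hc _) (abs_nonneg _) (hc _))
  have c1 := abs_le.1 (hchange k sgn abs_sgn)
  have c2 := abs_le.1 (hchange (k + 1) (fun _ => 1) fun _ => by simp)
  have hex : fullN f s x N n (fun σ τ =>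
      overlap σ τ ^ k * (sgn (σ (Fin.last N)) * sgn (τ (Fin.last N)))) =
      fullN f s x N n (fun σ τ => overlap σ τ ^ (k + 1) * (1 * 1)) := by
    simp only [one_mul, mul_one]
    unfold fullN
    exact integral_av2_exchange (N := N) (n := n) (s := s) (x := x) hf k
  have e : 2 * (k : ℝ) / (N + 1 : ℝ) ≤ 2 * (k + 1 : ℕ) / (N + 1 : ℝ) := by
    gcongr
    omega
  rw [hex] at c1
  obtain ⟨t1l, t1u⟩ := t1
  obtain ⟨t2l, t2u⟩ := t2
  obtain ⟨c1l, c1u⟩ := c1
  obtain ⟨c2l, c2u⟩ := c2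
  have e4 : 4 * ((k + 1 : ℕ) : ℝ) / (N + 1 : ℝ) = 2 * (2 * ((k + 1 : ℕ) : ℝ) / (N + 1 : ℝ)) := by
    ring
  rw [abs_le, e4]
  constructor <;> linarith

/-- Two bounded functions of the count that agree up to `e` for moderate counts. -/
lemma abs_count_sub_le (μ : ℝ≥0) {a b : ℕ → ℝ} (ha : ∀ n, |a n| ≤ 1) (hb : ∀ n, |b n| ≤ 1)
    {M e : ℝ} (hM : 0 < M) (he : 0 ≤ e) (h : ∀ n : ℕ, (n : ℝ) ≤ M → |a n - b n| ≤ e) :
    |∫ n, a n ∂poissonMeasure μ - ∫ n, b n ∂poissonMeasure μ| ≤ e + 2 / M * μ := by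
  have ia : Integrable a (poissonMeasure μ) :=
    Integrable.of_bound Measurable.of_discrete.aestronglyMeasurable 1 (ae_of_all _ ha)
  have ib : Integrable b (poissonMeasure μ) :=
    Integrable.of_bound Measurable.of_discrete.aestronglyMeasurable 1 (ae_of_all _ hb)
  have hc := integrable_count μ
  have hle : ∀ n : ℕ, |a n - b n| ≤ e + 2 / M * n := fun n => by
    have h0 : 0 ≤ 2 / M * (n : ℝ) := by positivity
    rcases le_or_gt (n : ℝ) M with hn | hn
    · linarith [h n hn]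
    · have h5 : (2 : ℝ) ≤ 2 / M * n := by
        rw [div_mul_eq_mul_div, le_div_iff₀ hM]
        linarith
      linarith [abs_sub (a n) (b n), ha n, hb n]
  rw [← integral_sub ia ib]
  refine abs_integral_le_integral_abs.trans ((integral_mono (ia.sub ib).abs
    ((integrable_const e).add (hc.const_mul (2 / M))) hle).trans ?_)
  simp only [Pi.add_apply]
  rw [integral_add (integrable_const _) (hc.const_mul _), integral_const_mul, integral_count]
  simp

/-- The expansion error with the parameters balanced. -/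
lemma expandErr_le {A T β δ ε : ℝ} {N : ℕ} (hA : 0 ≤ A) (hT : 0 ≤ T) (hβ : 0 ≤ β) (hδ : 0 < δ)
    (h1 : 4 * δ * ((1 + Real.exp (2 * A) * ∫ y, Real.exp (A * β * |y|) ∂gaussianReal 0 1) *
      Real.exp (β * (4 * A ^ 2 + 8 * A)) + Real.exp (2 * β * A ^ 2)) ≤ ε / 16)
    (h2 : 2 * (Real.exp (2 * A) * A ^ 2 * (β + β ^ 2)) / δ * Real.exp (β * (A + T * A)) ^ 3 *
      ((m₄ + 24300 * (1 + 2 * m₆)) / N + tail T) ≤ ε / 16) :
    expandErr A T β (δ / Real.exp (β * (A + T * A)) ^ 2) N ≤ ε / 8 := by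
  set I := ∫ y, Real.exp (A * β * |y|) ∂gaussianReal 0 1
  have hI : 0 ≤ I := integral_nonneg fun _ => (Real.exp_pos _).le
  rw [expandErr]
  set K := Real.exp (β * (A + T * A)) with hK
  have hK1 : 1 ≤ K := Real.one_le_exp (by positivity)
  set B := (m₄ + 24300 * (1 + 2 * m₆)) / (N : ℝ) + tail T
  set u := (1 + Real.exp (2 * A) * I) * Real.exp (β * (4 * A ^ 2 + 8 * A))
  set v := Real.exp (2 * β * A ^ 2)
  have hu : 0 ≤ u := by positivity
  have e : 4 * K * (Real.exp (2 * A) * A ^ 2 * (β + β ^ 2) * B / (2 * (δ / K ^ 2)) +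
      δ / K ^ 2 * (u + K * v)) =
      2 * (Real.exp (2 * A) * A ^ 2 * (β + β ^ 2)) / δ * K ^ 3 * B + 4 * δ * ((u + K * v) / K) := by
    field_simp; ring
  have h3 : (u + K * v) / K ≤ u + v := by
    rw [div_le_iff₀ (zero_lt_one.trans_le hK1)]
    linarith [mul_le_mul_of_nonneg_left hK1 hu]
  linarith [mul_le_mul_of_nonneg_left h3 (by positivity : (0 : ℝ) ≤ 4 * δ)]

/-- The perturbation error. -/
lemma pertErr_le {h ε : ℝ} {N : ℕ} (hN : 0 < N) (h0 : 0 < h) (h1 : h ≤ ε / 32)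
    (h2 : 16 / h * (N : ℝ) ^ (-(1 / 4 : ℝ)) ≤ ε / 32) :
    16 * scale N ^ 2 / (N + 1) / h + h ≤ ε / 16 := by
  have hN0 : (0 : ℝ) < N := Nat.cast_pos.2 hN
  have h5 : 16 * scale N ^ 2 / (N + 1) / h ≤ ε / 32 := by
    refine le_trans ?_ h2
    rw [scale_sq, show -(1 / 4 : ℝ) = 3 / 4 - 1 by norm_num, Real.rpow_sub_one hN0.ne',
      div_div, div_mul_div_comm, mul_comm ((N : ℝ) + 1) h]
    gcongr
    linarith
  linarith

/-- The bad counts are rare. -/
lemma count_tail_le {α C ε μ : ℝ} {N : ℕ} (hN : 0 < N) (hα : 0 < α) (hε : 0 < ε)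
    (hμ : |μ - α * N| ≤ C) : 2 / ((4 * (α + |C|) / ε + 1) * N) * μ ≤ ε / 2 := by
  have hN1 : (1 : ℝ) ≤ N := Nat.one_le_cast.2 hN
  rw [div_mul_eq_mul_div, div_le_iff₀ (by positivity)]
  have h7 : μ ≤ (α + |C|) * N := by
    have := (abs_le.1 hμ).2
    nlinarith [le_abs_self C, abs_nonneg C]
  have h8 : ε / 2 * ((4 * (α + |C|) / ε + 1) * N) = 2 * ((α + |C|) * N) + ε / 2 * N := by
    field_simp; ring
  nlinarith [mul_pos (half_pos hε) (zero_lt_one.trans_le hN1)]

end CavPair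

open CavPair Cavity in
open Vale.Agent.P168.Toolkit (integrable_count integral_count) in
/-- Module L1. -/
theorem cavPair_stmt : CavPairStmt := by
  intro α A C f hα hf k ε hε
  have hA := Smooth.A_nonneg hf
  set β : ℝ := 4 * (α + |C|) / ε + 1 with hβ
  have hβ0 : 0 < β := by positivity
  set C₀ : ℝ := Real.exp (2 * A) * A ^ 2 * (β + β ^ 2) with hC₀
  set I : ℝ := ∫ y, Real.exp (A * β * |y|) ∂gaussianReal 0 1
  set C₁ : ℝ := (1 + Real.exp (2 * A) * I) * Real.exp (β * (4 * A ^ 2 + 8 * A)) +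
    Real.exp (2 * β * A ^ 2) with hC₁
  have hI0 : 0 ≤ I := integral_nonneg fun _ => (Real.exp_pos _).le
  have hC₁0 : 0 < C₁ := by positivity
  set δ : ℝ := ε / (64 * C₁) with hδ
  have hδ0 : 0 < δ := by positivity
  set a : ℝ := 3 * β * A + 1 with ha
  have ha0 : 0 ≤ a := by positivity
  set J : ℝ := ∫ y, Real.exp ((a + 1) * |y|) ∂gaussianReal 0 1
  have hlim : Tendsto (fun T : ℝ =>
      2 * C₀ / δ * (2 * J * Real.exp (3 * β * A)) * Real.exp (-T)) atTop (𝓝 0) := by
    simpa using Real.tendsto_exp_neg_atTop_nhds_zero.const_mul _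
  obtain ⟨T₁, hT₁⟩ := eventually_atTop.1 (hlim.eventually (eventually_le_nhds
    (show (0 : ℝ) < ε / 32 by positivity)))
  refine ⟨max T₁ 0, fun T hT => ?_⟩
  have hT0 : 0 ≤ T := le_of_max_le_right hT
  set K : ℝ := Real.exp (β * (A + T * A)) with hK
  have hK1 : 1 ≤ K := Real.one_le_exp (by positivity)
  have hK0 : 0 < K := Real.exp_pos _
  have htail : 2 * C₀ / δ * K ^ 3 * tail T ≤ ε / 32 := by
    refine le_trans ?_ (hT₁ T (le_of_max_le_left hT))
    have h := tail_le hT0 ha0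
    have e : Real.exp (-a * T) * K ^ 3 = Real.exp (3 * β * A) * Real.exp (-T) := by
      rw [hK, ← Real.exp_nat_mul, ← Real.exp_add, ← Real.exp_add, ha]; push_cast; ring_nf
    calc 2 * C₀ / δ * K ^ 3 * tail T ≤ 2 * C₀ / δ * K ^ 3 * (2 * Real.exp (-a * T) * J) :=
          mul_le_mul_of_nonneg_left h (by rw [hC₀]; positivity)
      _ = 2 * C₀ / δ * (2 * J * (Real.exp (-a * T) * K ^ 3)) := by ring
      _ = _ := by rw [e]; ring
  set M : ℝ := 2 * C₀ / δ * K ^ 3 * (m₄ + 24300 * (1 + 2 * m₆))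
  set h : ℝ := min (ε / 32) 1 with hh
  have hh0 : 0 < h := lt_min (by positivity) one_pos
  have hev1 : ∀ᶠ N : ℕ in atTop, M / N ≤ ε / 32 :=
    (tendsto_const_div_atTop_nhds_zero_nat M).eventually (eventually_le_nhds (by positivity))
  have hev2 : ∀ᶠ N : ℕ in atTop, 16 / h * (N : ℝ) ^ (-(1 / 4 : ℝ)) ≤ ε / 32 := by
    refine Tendsto.eventually ?_ (eventually_le_nhds (show (0 : ℝ) < ε / 32 by positivity))
    simpa using ((tendsto_rpow_neg_atTop (by norm_num : (0 : ℝ) < 1 / 4)).comp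
      tendsto_natCast_atTop_atTop).const_mul (16 / h)
  have hev3 : ∀ᶠ N : ℕ in atTop, 4 * ((k + 1 : ℕ) : ℝ) / N ≤ ε / 8 :=
    (tendsto_const_div_atTop_nhds_zero_nat _).eventually (eventually_le_nhds (by positivity))
  filter_upwards [hev1, hev2, hev3, eventually_gt_atTop 0,
    tendsto_natCast_atTop_atTop.eventually (eventually_ge_atTop (16 * A))]
    with N h1 h2 h3 hN hNA μ hμ0 hμ x hx
  have hN0 : (0 : ℝ) < N := Nat.cast_pos.2 hN
  have hN1 : (1 : ℝ) ≤ N := Nat.one_le_cast.2 hN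
  have q1 : cavPair N f T (scale N) x μ k Real.cosh Real.sinh =
      ∫ n, pairN f T (scale N) x N n k sgn ∂poissonMeasure μ.toNNReal :=
    cavPair_eq hf μ k abs_sgn fun n g z σ => (cavW_avg g z σ).2
  have q2 : cavPair N f T (scale N) x μ (k + 1) Real.cosh Real.cosh =
      ∫ n, pairN f T (scale N) x N n (k + 1) (fun _ => 1) ∂poissonMeasure μ.toNNReal :=
    cavPair_eq hf μ (k + 1) (fun _ => by simp) fun n g z σ => by
      simpa using (cavW_avg (T := T) (f := f) g z σ).1
  rw [q1, q2]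
  set η : ℝ := δ / K ^ 2 with hη
  have hη0 : 0 < η := by positivity
  have hE : expandErr A T β η N ≤ ε / 8 := by
    refine expandErr_le hA hT0 hβ0.le hδ0 (le_of_eq ?_) ?_
    · rw [← hC₁, hδ]; field_simp; ring
    · rw [← hC₀, ← hK, mul_add, ← mul_div_assoc]
      linarith
  have hD := pertErr_le (ε := ε) hN hh0 (min_le_left _ _) h2
  have hk : 4 * ((k + 1 : ℕ) : ℝ) / (N + 1) ≤ ε / 8 := le_trans (by gcongr; linarith) h3
  have hbd : ∀ (j : ℕ) (c : Bool → ℝ), (∀ e, |c e| ≤ 1) → ∀ n,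
      |pairN f T (scale N) x N n j c| ≤ 1 := fun j c hc n => by
    rw [pairN, ← Real.norm_eq_abs]
    exact (norm_integral_le_of_norm_le_const (C := 1) (ae_of_all _ fun p =>
      abs_av2_le _ fun a a' => abs_obsF_le j hc a a')).trans_eq (by simp)
  refine (abs_count_sub_le μ.toNNReal (hbd k sgn abs_sgn) (hbd (k + 1) _ fun _ => by simp)
    (M := β * N) (e := ε / 2) (by positivity) (by positivity) fun n hn => ?_).trans ?_
  · have hh1 : h ≤ 1 := min_le_right _ _
    refine (abs_pairN_sub (T := T) (s := scale N) (x := x) (η := η) (β := β) (h := h)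
      hN hf hT0 hNA hη0 hn hx hh0 hh1 k).trans ?_
    linarith only [hE, hD, hk]
  rw [Real.coe_toNNReal _ hμ0]
  have h6 : 2 / (β * N) * μ ≤ ε / 2 := count_tail_le hN hα hε hμ
  linarith

end Vale.Agent.P157.Parisi.Full
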