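import Vale.Agent.P157.Parisi.Cavity.Main

/-!
Two replicas of a finite Gibbs measure: tilts, relabelling, and Gaussian fields with close
covariances.
-/

noncomputable section

open MeasureTheory ProbabilityTheory
open scoped BigOperators

namespace Vale.Agent.P157.Parisi.Full.CavPair

open Vale.Agent.P168.Limit (logZ gw gav rav)
open Vale.Agent.P168.Limit.SelfAvg (field integrable_logZ_field)
open Cavity (field_compare)

variable {X : Type*} [Fintype X]

/-- The mean of a function of two replicas. -/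
def av2 (H : X → ℝ) (F : X → X → ℝ) : ℝ := gav H fun a => gav H fun b => F a b

/-- The Hamiltonian of a pair of replicas. -/
def pairH (H : X → ℝ) (p : X × X) : ℝ := H p.1 + H p.2

lemma gw_pairH (H : X → ℝ) (p : X × X) : gw (pairH H) p = gw H p.1 * gw H p.2 := by
  simp only [gw, pairH, Real.exp_add, Fintype.sum_prod_type, ← Finset.mul_sum, ← Finset.sum_mul]
  rw [div_mul_div_comm]

lemma av2_eq_pair (H : X → ℝ) (F : X → X → ℝ) :
    av2 H F = gav (pairH H) fun p => F p.1 p.2 := by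
  simp only [av2, gav, gw_pairH, Fintype.sum_prod_type, Finset.mul_sum]
  exact Finset.sum_congr rfl fun a _ => Finset.sum_congr rfl fun b _ => by ring

lemma av2_eq_sum (H : X → ℝ) (F : X → X → ℝ) :
    av2 H F = ∑ a, ∑ b, gw H a * gw H b * F a b := by
  simp only [av2, gav, Finset.mul_sum, mul_assoc]

variable [Nonempty X]

lemma abs_av2_le (H : X → ℝ) {F : X → X → ℝ} {B : ℝ} (h : ∀ a b, |F a b| ≤ B) :
    |av2 H F| ≤ B :=
  haveI : Inhabited X := Classical.inhabited_of_nonempty inferInstance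
  Vale.Agent.P168.Limit.abs_gav_le_of_le H fun a =>
    Vale.Agent.P168.Limit.abs_gav_le_of_le H fun b => h a b

omit [Nonempty X] in
lemma av2_sub (H : X → ℝ) (F G : X → X → ℝ) :
    av2 H (fun a b => F a b - G a b) = av2 H F - av2 H G := by
  simp only [av2_eq_sum, mul_sub, Finset.sum_sub_distrib]

lemma abs_av2_sub_le (H : X → ℝ) {F G : X → X → ℝ} {B : ℝ} (h : ∀ a b, |F a b - G a b| ≤ B) :
    |av2 H F - av2 H G| ≤ B := by
  rw [← av2_sub]; exact abs_av2_le H h

omit [Nonempty X] in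
/-- Relabelling the configurations. -/
lemma av2_equiv {Y : Type*} [Fintype Y] (e : Y ≃ X) (H : X → ℝ) (F : X → X → ℝ) :
    av2 (fun y => H (e y)) (fun a b => F (e a) (e b)) = av2 H F := by
  have hw : ∀ y, gw (fun y => H (e y)) y = gw H (e y) := fun y => by
    simp only [gw, e.sum_comp (fun x => Real.exp (H x))]
  simp only [av2_eq_sum, hw]
  rw [← e.sum_comp (fun a => ∑ b, gw H a * gw H b * F a b)]
  exact Finset.sum_congr rfl fun a _ =>
    (e.sum_comp (fun b => gw H (e a) * gw H b * F (e a) b))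

/-- Two replicas under a tilt. -/
lemma abs_av2_tilt_le (H δ : X → ℝ) {F : X → X → ℝ} (hF : ∀ a b, |F a b| ≤ 1) :
    |av2 (fun y => H y + δ y) F - av2 H F| ≤ 4 * gav H fun x => |Real.exp (δ x) - 1| := by
  haveI : Inhabited X := Classical.inhabited_of_nonempty inferInstance
  have e : ∀ K : X → ℝ, av2 K F = rav 2 K fun σ => F (σ 0) (σ 1) := fun K => by
    rw [av2_eq_sum, rav, ← (piFinTwoEquiv fun _ => X).symm.sum_comp, Fintype.sum_prod_type]
    simp [Fin.prod_univ_two]
  rw [e, e]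
  exact (Vale.Agent.P168.Limit.abs_rav_tilt_le 2 H δ _ fun σ => hF _ _).trans_eq (by norm_num)

omit [Nonempty X] in
lemma measurable_av2 {α : Type*} [MeasurableSpace α] {H : α → X → ℝ}
    (hH : ∀ σ, Measurable fun a => H a σ) (F : X → X → ℝ) :
    Measurable fun a => av2 (H a) F := by
  simp only [av2_eq_sum, gw]
  fun_prop

lemma integrable_av2 {α : Type*} [MeasurableSpace α] {μ : Measure α} [IsFiniteMeasure μ]
    {H : α → X → ℝ} (hH : ∀ σ, Measurable fun a => H a σ) {F : X → X → ℝ} {B : ℝ}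
    (hF : ∀ a b, |F a b| ≤ B) : Integrable (fun a => av2 (H a) F) μ :=
  Integrable.of_bound (measurable_av2 hH F).aestronglyMeasurable B
    (ae_of_all _ fun a => (abs_av2_le (H a) hF))

/-- The tangent and a parabola enclose the free energy in a bounded direction. -/
lemma logZ_step (H : X → ℝ) {F : X → ℝ} (hF : ∀ a, |F a| ≤ 1) {h : ℝ} (h0 : 0 ≤ h) (h1 : h ≤ 1) :
    h * gav H F ≤ logZ (fun a => H a + h * F a) - logZ H ∧
      logZ (fun a => H a + h * F a) - logZ H ≤ h * gav H F + h ^ 2 := by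
  haveI : Inhabited X := Classical.inhabited_of_nonempty inferInstance
  constructor
  · exact (Vale.Agent.P168.Limit.gav_const_mul H F h).symm.trans_le
      (Vale.Agent.P168.Limit.gav_le_logZ_sub H fun a => h * F a)
  · rw [Vale.Agent.P168.Limit.logZ_tilt]
    have hb : ∀ a, Real.exp (h * F a) ≤ 1 + h * F a + h ^ 2 := fun a => by
      have h2 : |h * F a| ≤ h := by
        rw [abs_mul, abs_of_nonneg h0]; exact mul_le_of_le_one_right h0 (hF a)
      have h3 := (abs_le.1 (Real.abs_exp_sub_one_sub_id_le (h2.trans h1))).2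
      have h4 : (h * F a) ^ 2 ≤ h ^ 2 := by
        rw [← sq_abs]; exact pow_le_pow_left₀ (abs_nonneg _) h2 2
      linarith
    have := Vale.Agent.P168.Limit.gav_mono H hb
    rw [Vale.Agent.P168.Limit.gav_add, Vale.Agent.P168.Limit.gav_add,
      Vale.Agent.P168.Limit.gav_const, Vale.Agent.P168.Limit.gav_const,
      Vale.Agent.P168.Limit.gav_const_mul] at this
    have hp := Vale.Agent.P168.Limit.gav_exp_pos H fun a => h * F a
    exact (Real.log_le_sub_one_of_pos hp).trans (by linarith)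

variable {ι κ ι₀ κ₁ κ₂ : Type*} [Fintype ι] [Fintype κ] [Fintype ι₀] [Fintype κ₁] [Fintype κ₂]

/-- The coefficients of a field on pairs of replicas. -/
def pairF (φ : X → ι → ℝ) (p : X × X) (i : ι) : ℝ := φ p.1 i + φ p.2 i

omit [Fintype X] [Nonempty X] in
lemma field_pair (φ : X → ι → ℝ) (z : ι → ℝ) (p : X × X) :
    field (pairF φ) z p = field φ z p.1 + field φ z p.2 := by
  simp [field, pairF, add_mul, Finset.sum_add_distrib]

omit [Fintype X] [Nonempty X] in
lemma sum_pairF_mul (φ : X → ι → ℝ) (x y : X × X) :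
    ∑ i, pairF φ x i * pairF φ y i = ∑ i, φ x.1 i * φ y.1 i + ∑ i, φ x.1 i * φ y.2 i +
      (∑ i, φ x.2 i * φ y.1 i + ∑ i, φ x.2 i * φ y.2 i) := by
  simp only [pairF, ← Finset.sum_add_distrib]
  exact Finset.sum_congr rfl fun i _ => by ring

omit [Fintype X] [Nonempty X] in
lemma sum_pairF_sq_le (φ : X → ι → ℝ) {v : ℝ} (h : ∀ x, ∑ i, φ x i ^ 2 ≤ v) (p : X × X) :
    ∑ i, pairF φ p i ^ 2 ≤ 4 * v := by
  have : ∑ i, pairF φ p i ^ 2 ≤ 2 * ∑ i, φ p.1 i ^ 2 + 2 * ∑ i, φ p.2 i ^ 2 := by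
    rw [Finset.mul_sum, Finset.mul_sum, ← Finset.sum_add_distrib]
    exact Finset.sum_le_sum fun i _ => add_sq_le.trans_eq (by ring)
  linarith [h p.1, h p.2]

/-- The mean of two replicas between increments of the free energy of pairs. -/
lemma pair_step (A : X → ℝ) (φ : X → ι → ℝ) {F : X → X → ℝ} (hF : ∀ a b, |F a b| ≤ 1)
    {h : ℝ} (h0 : 0 ≤ h) (h1 : h ≤ 1) :
    h * ∫ z, av2 (fun x => A x + field φ z x) F ∂gam ι ≤
        (∫ z, (logZ fun p => (pairH A p + h * F p.1 p.2) + field (pairF φ) z p) ∂gam ι) -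
          ∫ z, (logZ fun p => pairH A p + field (pairF φ) z p) ∂gam ι ∧
      (∫ z, (logZ fun p => (pairH A p + h * F p.1 p.2) + field (pairF φ) z p) ∂gam ι) -
          ∫ z, (logZ fun p => pairH A p + field (pairF φ) z p) ∂gam ι ≤
        h * ∫ z, av2 (fun x => A x + field φ z x) F ∂gam ι + h ^ 2 := by
  have inc : ∀ z, h * av2 (fun x => A x + field φ z x) F ≤
      (logZ fun p => (pairH A p + h * F p.1 p.2) + field (pairF φ) z p) -
        (logZ fun p => pairH A p + field (pairF φ) z p) ∧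
      (logZ fun p => (pairH A p + h * F p.1 p.2) + field (pairF φ) z p) -
        (logZ fun p => pairH A p + field (pairF φ) z p) ≤
      h * av2 (fun x => A x + field φ z x) F + h ^ 2 := fun z => by
    have e1 : (fun p => pairH A p + field (pairF φ) z p) =
        pairH (fun x => A x + field φ z x) := funext fun p => by
      simp only [pairH, field_pair]; ring
    have e2 : (fun p => (pairH A p + h * F p.1 p.2) + field (pairF φ) z p) =
        fun p => pairH (fun x => A x + field φ z x) p + h * F p.1 p.2 := funext fun p => by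
      simp only [pairH, field_pair]; ring
    rw [e1, e2, av2_eq_pair]
    exact logZ_step (F := fun p : X × X => F p.1 p.2) _ (fun p => hF p.1 p.2) h0 h1
  have i1 := integrable_logZ_field (fun p => pairH A p + h * F p.1 p.2) (pairF φ)
  have i0 := integrable_logZ_field (pairH A) (pairF φ)
  have ia : Integrable (fun z => h * av2 (fun x => A x + field φ z x) F) (gam ι) :=
    (integrable_av2 (fun σ => (Vale.Agent.P168.Limit.SelfAvg.measurable_field φ σ).const_add _)
      hF).const_mul h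
  have l := integral_mono ia (i1.sub i0) fun z => (inc z).1
  have u := integral_mono (i1.sub i0) (ia.add (integrable_const (h ^ 2))) fun z => (inc z).2
  simp only [Pi.sub_apply, Pi.add_apply] at l u
  rw [integral_sub i1 i0, integral_const_mul] at l
  rw [integral_sub i1 i0, integral_add ia (integrable_const _), integral_const_mul] at u
  simp only [integral_const, probReal_univ, one_smul] at u
  exact ⟨l, u⟩

/-- Gaussian fields with a common part and small remainders give close means of two replicas. -/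
theorem av2_field_compare (A : X → ℝ) (φ₁ : X → ι → ℝ) (φ₂ : X → κ → ℝ) (φ₀ : X → ι₀ → ℝ)
    (ψ₁ : X → κ₁ → ℝ) (ψ₂ : X → κ₂ → ℝ)
    (h₁ : ∀ x y, ∑ i, φ₁ x i * φ₁ y i = ∑ i, φ₀ x i * φ₀ y i + ∑ i, ψ₁ x i * ψ₁ y i)
    (h₂ : ∀ x y, ∑ i, φ₂ x i * φ₂ y i = ∑ i, φ₀ x i * φ₀ y i + ∑ i, ψ₂ x i * ψ₂ y i)
    {v : ℝ} (v₁ : ∀ x, ∑ i, ψ₁ x i ^ 2 ≤ v) (v₂ : ∀ x, ∑ i, ψ₂ x i ^ 2 ≤ v)
    {F : X → X → ℝ} (hF : ∀ a b, |F a b| ≤ 1) {h : ℝ} (h0 : 0 < h) (h1 : h ≤ 1) :
    |∫ z, av2 (fun x => A x + field φ₁ z x) F ∂gam ι -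
      ∫ z, av2 (fun x => A x + field φ₂ z x) F ∂gam κ| ≤ 4 * v / h + h := by
  have cmp : ∀ B : X × X → ℝ,
      |∫ z, (logZ fun p => B p + field (pairF φ₁) z p) ∂gam ι -
        ∫ z, (logZ fun p => B p + field (pairF φ₂) z p) ∂gam κ| ≤ 2 * v := fun B => by
    refine (field_compare B (pairF φ₁) (pairF φ₂) (pairF φ₀) (pairF ψ₁) (pairF ψ₂)
      (fun x y => ?_) (fun x y => ?_) (v := 4 * v) (sum_pairF_sq_le _ v₁)
      (sum_pairF_sq_le _ v₂)).trans_eq (by ring)
    · simp only [sum_pairF_mul, h₁]; ring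
    · simp only [sum_pairF_mul, h₂]; ring
  obtain ⟨l1, u1⟩ := pair_step A φ₁ hF h0.le h1
  obtain ⟨l2, u2⟩ := pair_step A φ₂ hF h0.le h1
  have c0 := abs_le.1 (cmp (pairH A))
  have c1 := abs_le.1 (cmp fun p => pairH A p + h * F p.1 p.2)
  refine le_of_mul_le_mul_left ?_ h0
  rw [← abs_of_pos h0, ← abs_mul, abs_of_pos h0, mul_add, mul_div_cancel₀ _ h0.ne', mul_sub,
    abs_le]
  constructor <;> linarith

end Vale.Agent.P157.Parisi.Full.CavPair
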